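import Vale.Agent.P370.Interface
import Vale.Agent.P363.R801.H2

/-!
Block A5: the energies of a molecule are bounded below.
-/

namespace Vale.Agent.P370

open MeasureTheory Filter Topology
open Vale.Agent.P363.Stmt
open Vale.Agent.P363.H382
open Vale.Agent.P363.R.Sob
open Vale.Agent.P363.R.Top

namespace H399

noncomputable section

variable {N M : ℕ}

/-- Coulomb form bound for one electron and one nucleus. -/
theorem one_le (R : R3) {f : Conf N → ℂ} {g : Fin N → Fin 3 → Conf N → ℂ}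
    (hf : MemLp f 2 (volume : Measure (Conf N)))
    (hg : ∀ i k, MemLp (g i k) 2 (volume : Measure (Conf N)))
    (h : ∀ i k, IsWD (volume : Measure (Conf N)) (dir i k) f (g i k)) (i : Fin N) :
    Integrable (fun z : Conf N => ‖f z‖ ^ 2 / ‖z i - R‖) ∧
    ∀ η : ℝ, 0 < η → ∫ z : Conf N, ‖f z‖ ^ 2 / ‖z i - R‖ ≤
      η * (∑ k, ∫ z, ‖g i k z‖ ^ 2) + (1 / η) * ∫ z, ‖f z‖ ^ 2 :=
  coulomb_le (μ := (volume : Measure (Conf N))) (P363.R801.prj i) R (fun k => dir i k)
    (fun k => P363.R801.prj_dir i k) hf (fun k => hg i k) (fun k => h i k)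

theorem bdd_amp (Z : Fin M → ℕ) (R : Fin M → R3) {f : Conf N → ℂ}
    {g : Fin N → Fin 3 → Conf N → ℂ} (hf : MemLp f 2 (volume : Measure (Conf N)))
    (hg : ∀ i k, MemLp (g i k) 2 (volume : Measure (Conf N)))
    (h : ∀ i k, IsWD (volume : Measure (Conf N)) (dir i k) f (g i k)) {η : ℝ} (hη : 0 < η) :
    -(∑ i, ∑ j, (Z j : ℝ) * (η * (∑ k, ∫ z, ‖g i k z‖ ^ 2) + (1 / η) * ∫ z, ‖f z‖ ^ 2)) ≤
      ∫ x : Conf N, coulombPotential Z R x * ‖f x‖ ^ 2 := by
  have h1 : ∀ x : Conf N, coulombPotential Z R x * ‖f x‖ ^ 2 =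
      (∑ i, ∑ j, -((Z j : ℝ) * (‖f x‖ ^ 2 / ‖x i - R j‖))) +
        ∑ i, ∑ k ∈ Finset.Ioi i, ‖f x‖ ^ 2 / ‖x i - x k‖ := by
    intro x
    unfold coulombPotential
    rw [add_mul, Finset.sum_mul, Finset.sum_mul]
    congr 1
    · refine Finset.sum_congr rfl fun i _ => ?_
      rw [Finset.sum_mul]
      exact Finset.sum_congr rfl fun j _ => by ring
    · refine Finset.sum_congr rfl fun i _ => ?_
      rw [Finset.sum_mul]
      exact Finset.sum_congr rfl fun k _ => by ring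
  simp only [h1]
  have i1 : ∀ i : Fin N, ∀ j : Fin M,
      Integrable (fun x : Conf N => -((Z j : ℝ) * (‖f x‖ ^ 2 / ‖x i - R j‖))) := fun i j =>
    (((one_le (R j) hf hg h i).1).const_mul _).neg
  have i2 : Integrable (fun x : Conf N => ∑ i, ∑ j, -((Z j : ℝ) * (‖f x‖ ^ 2 / ‖x i - R j‖))) :=
    integrable_finsetSum _ fun i _ => integrable_finsetSum _ fun j _ => i1 i j
  have i3 : Integrable (fun x : Conf N => ∑ i, ∑ k ∈ Finset.Ioi i, ‖f x‖ ^ 2 / ‖x i - x k‖) :=
    integrable_finsetSum _ fun i _ => integrable_finsetSum _ fun k hk =>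
      P363.R801.int_two hf hg h (ne_of_lt (Finset.mem_Ioi.1 hk))
  rw [integral_add i2 i3]
  have h2 : 0 ≤ ∫ x : Conf N, ∑ i, ∑ k ∈ Finset.Ioi i, ‖f x‖ ^ 2 / ‖x i - x k‖ :=
    integral_nonneg fun x => Finset.sum_nonneg fun i _ => Finset.sum_nonneg fun k _ => by positivity
  refine le_trans ?_ (le_add_of_nonneg_right h2)
  rw [integral_finsetSum _ fun i _ => integrable_finsetSum _ fun j _ => i1 i j,
    ← Finset.sum_neg_distrib]
  refine Finset.sum_le_sum fun i _ => ?_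
  rw [integral_finsetSum _ fun j _ => i1 i j, ← Finset.sum_neg_distrib]
  refine Finset.sum_le_sum fun j _ => ?_
  rw [integral_neg, neg_le_neg_iff, integral_const_mul]
  exact mul_le_mul_of_nonneg_left ((one_le (R j) hf hg h i).2 η hη) (Nat.cast_nonneg _)

/-- Block A5. -/
theorem bddStmt : BddStmt := by
  intro M N Z R
  set K : ℝ := ∑ j, (Z j : ℝ) with hK
  have hK0 : 0 ≤ K := Finset.sum_nonneg fun j _ => Nat.cast_nonneg _
  set η : ℝ := 1 / (2 * (K + 1)) with hηd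
  have hη : 0 < η := by positivity
  have hKη : K * η ≤ 1 / 2 := by
    rw [hηd, mul_one_div, div_le_div_iff₀ (by positivity) (by norm_num)]
    linarith
  refine ⟨-(N * K * (1 / η)), ?_⟩
  rintro e ⟨Ψ, hΨ, rfl⟩
  have h1 : ∀ s, -(K * η * (∑ i, ∑ k, intR fun x => ‖Ψ.grad s i k x‖ ^ 2) +
      N * K * (1 / η) * intR fun x => ‖Ψ.amp s x‖ ^ 2) ≤
      intR fun x => coulombPotential Z R x * ‖Ψ.amp s x‖ ^ 2 := by
    intro s
    refine le_trans (le_of_eq ?_) (bdd_amp Z R (Ψ.amp_memLp s) (fun i k => Ψ.grad_memLp s i k)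
      (fun i k => isWeakDeriv_iff.1 (Ψ.grad_weak s i k)) hη)
    congr 1
    simp only [← Finset.sum_mul, ← hK]
    rw [← Finset.mul_sum, Finset.sum_add_distrib, Finset.sum_const, Finset.card_univ,
      Fintype.card_fin, nsmul_eq_mul, ← Finset.mul_sum]
    simp only [intR_eq]
    ring
  have h2 := Finset.sum_le_sum fun (s : Fin N → Fin 2) (_ : s ∈ Finset.univ) => h1 s
  unfold normSq at hΨ
  unfold energy
  rw [Finset.sum_neg_distrib, Finset.sum_add_distrib, ← Finset.mul_sum, ← Finset.mul_sum, hΨ]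
    at h2
  have h3 : 0 ≤ ∑ s, ∑ i, ∑ k, intR fun x => ‖Ψ.grad s i k x‖ ^ 2 :=
    Finset.sum_nonneg fun s _ => Finset.sum_nonneg fun i _ => Finset.sum_nonneg fun k _ =>
      integral_nonneg fun x => by positivity
  nlinarith

end

end H399

end Vale.Agent.P370
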