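import Vale.Agent.P370.Alg
import Vale.Agent.Lib.PCP.PT.Fin
import Vale.Agent.Lib.PCP.PT.Arith

/-!
Block T1: the reduction is computable in polynomial time.
-/

namespace Vale.Agent.P370

open Vale.Agent.Lib.PCP (CNF3 Lit)
open Vale.Agent.Lib.PolyTime

namespace H399

variable {A : Set Word} {α : Type} [Enc α]

/-! ### The pairs of literals -/

theorem PT_varList {φ : α → CNF3} (hφ : PT A φ) : PT A (fun a => varList (φ a)) := by
  have h1 : PT A (fun p : α × (Lit × Lit × Lit) => p.2) := PT.snd'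
  exact PT.flatMap (f := fun _ (c : Lit × Lit × Lit) => [c.1.1, c.2.1.1, c.2.2.1]) hφ
    (PT.cons h1.fst.fst (PT.cons h1.snd.fst.fst (PT.cons h1.snd.snd.fst (PT.const []))))

theorem PT_renLit {φ : α → CNF3} {l : α → Lit} (hφ : PT A φ) (hl : PT A l) :
    PT A (fun a => renLit (φ a) (l a)) :=
  (PT.idxOf (PT_varList hφ) hl.fst).pair hl.snd

theorem PT_clausePairs {φ : α → CNF3} {j : α → ℕ} {c : α → Lit × Lit × Lit} (hφ : PT A φ)
    (hj : PT A j) (hc : PT A c) : PT A (fun a => clausePairs (φ a) (j a) (c a)) := by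
  have ha := PT_renLit hφ hc.fst
  have hb := PT_renLit hφ hc.snd.fst
  have hd := PT_renLit hφ hc.snd.snd
  have hF : PT A (fun a => ((3 * (φ a).length, true) : ℕ × Bool)) :=
    ((PT.const 3).mul hφ.length).pair (PT.const true)
  have hy : PT A (fun a => ((3 * (φ a).length + 1 + j a, true) : ℕ × Bool)) :=
    ((((PT.const 3).mul hφ.length).add (PT.const 1)).add hj).pair (PT.const true)
  have hy' : PT A (fun a => ((3 * (φ a).length + 1 + j a, false) : ℕ × Bool)) :=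
    ((((PT.const 3).mul hφ.length).add (PT.const 1)).add hj).pair (PT.const false)
  exact PT.cons (ha.pair hb) (PT.cons (hb.pair hy) (PT.cons (ha.pair hy)
    (PT.cons (hy'.pair hd) (PT.cons (hd.pair hF) (PT.cons (hy'.pair hF) (PT.const []))))))

theorem PT_allPairs {φ : α → CNF3} (hφ : PT A φ) : PT A (fun a => allPairs (φ a)) :=
  PT.flatMap (f := fun a (p : (Lit × Lit × Lit) × ℕ) => clausePairs (φ a) p.2 p.1) (PT.zipIdx hφ)
    (PT_clausePairs (hφ.comp PT.fst') PT.snd'.snd PT.snd'.fst)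

/-! ### The cells -/

theorem PT_contactsN {ps : α → List ((ℕ × Bool) × (ℕ × Bool))} {Lam i x : α → ℕ} (hps : PT A ps)
    (hLam : PT A Lam) (hi : PT A i) (hx : PT A x) :
    PT A (fun a => Alg.contactsN (ps a) (Lam a) (i a) (x a)) := by
  have hLam' : PT A (fun q : α × (((ℕ × Bool) × (ℕ × Bool)) × ℕ) => Lam q.1) := hLam.comp PT.fst'
  have hi' : PT A (fun q : α × (((ℕ × Bool) × (ℕ × Bool)) × ℕ) => i q.1) := hi.comp PT.fst'
  have hx' : PT A (fun q : α × (((ℕ × Bool) × (ℕ × Bool)) × ℕ) => x q.1) := hx.comp PT.fst'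
  have hp : PT A (fun q : α × (((ℕ × Bool) × (ℕ × Bool)) × ℕ) => q.2) := PT.snd'
  refine PT.sum (PT.map (f := fun a (p : ((ℕ × Bool) × (ℕ × Bool)) × ℕ) =>
    (if p.1.1.1 = i a ∧ x a = (p.2 + 1) * Lam a + (if p.1.1.2 then 0 else 1) then 1 else 0) +
    (if p.1.2.1 = i a ∧ x a = (p.2 + 1) * Lam a + (if p.1.2.2 then 1 else 0) then 1 else 0))
    (PT.zipIdx hps) ?_)
  refine PT.add ?_ ?_
  · refine PT.ite (p := fun q : α × (((ℕ × Bool) × (ℕ × Bool)) × ℕ) => q.2.1.1.1 = i q.1 ∧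
      x q.1 = (q.2.2 + 1) * Lam q.1 + (if q.2.1.1.2 then 0 else 1)) ?_ (PT.const 1) (PT.const 0)
    refine PT.decide_and (PT.eqNat hp.fst.fst.fst hi') (PT.eqNat hx' (PT.add
      (PT.mul (PT.add hp.snd (PT.const 1)) hLam') ?_))
    refine PT.ite (p := fun q : α × (((ℕ × Bool) × (ℕ × Bool)) × ℕ) => q.2.1.1.2 = true)
      (hp.fst.fst.snd.congr fun q => by simp) (PT.const 0) (PT.const 1)
  · refine PT.ite (p := fun q : α × (((ℕ × Bool) × (ℕ × Bool)) × ℕ) => q.2.1.2.1 = i q.1 ∧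
      x q.1 = (q.2.2 + 1) * Lam q.1 + (if q.2.1.2.2 then 1 else 0)) ?_ (PT.const 1) (PT.const 0)
    refine PT.decide_and (PT.eqNat hp.fst.snd.fst hi') (PT.eqNat hx' (PT.add
      (PT.mul (PT.add hp.snd (PT.const 1)) hLam') ?_))
    refine PT.ite (p := fun q : α × (((ℕ × Bool) × (ℕ × Bool)) × ℕ) => q.2.1.2.2 = true)
      (hp.fst.snd.snd.congr fun q => by simp) (PT.const 1) (PT.const 0)

theorem PT_cellsN {ps : α → List ((ℕ × Bool) × (ℕ × Bool))} {n m s ell D Lam W X : α → ℕ}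
    (hps : PT A ps) (hn : PT A n) (hnb : PBd n) (hm : PT A m) (hmb : PBd m) (hs : PT A s)
    (hell : PT A ell) (hD : PT A D) (hLam : PT A Lam) (hW : PT A W) (hX : PT A X) (hXb : PBd X) :
    PT A (fun a => Alg.cellsN (ps a) (n a) (m a) (s a) (ell a) (D a) (Lam a) (W a) (X a)) := by
  refine PT.append (PT.flatMap (f := fun a i => (List.range (X a)).map fun x =>
    (((2 * s a * x, 2 * s a * (D a + ell a * i)), 20 + Alg.contactsN (ps a) (Lam a) i x),
      decide (x % 2 = 0))) (PT.range hn hnb) ?_)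
    (PT.map (f := fun a e => (((s a * (2 * ((e + 1) * Lam a) + 1), 0), W a), true))
      (PT.range hm hmb) ?_)
  · have h1 : PT A (fun p : α × ℕ => X p.1) := hX.comp PT.fst'
    have h1b : PBd (fun p : α × ℕ => X p.1) := hXb.comp (A := A) PT.fst'
    refine PT.map (f := fun (p : α × ℕ) x =>
      (((2 * s p.1 * x, 2 * s p.1 * (D p.1 + ell p.1 * p.2)),
        20 + Alg.contactsN (ps p.1) (Lam p.1) p.2 x), decide (x % 2 = 0))) (PT.range h1 h1b) ?_
    have ha : PT A (fun q : (α × ℕ) × ℕ => q.1.1) := PT.fst'.fst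
    have hi : PT A (fun q : (α × ℕ) × ℕ => q.1.2) := PT.fst'.snd
    have hx : PT A (fun q : (α × ℕ) × ℕ => q.2) := PT.snd'
    refine PT.pair (PT.pair (PT.pair ?_ ?_) ?_) ?_
    · exact PT.mul (PT.mul (PT.const 2) (hs.comp ha)) hx
    · exact PT.mul (PT.mul (PT.const 2) (hs.comp ha)) (PT.add (hD.comp ha)
        (PT.mul (hell.comp ha) hi))
    · exact PT.add (PT.const 20) (PT_contactsN (hps.comp ha) (hLam.comp ha) hi hx)
    · exact PT.eqNat (PT.mod hx (PT.const 2)) (PT.const 0)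
  · have ha : PT A (fun q : α × ℕ => q.1) := PT.fst'
    have he : PT A (fun q : α × ℕ => q.2) := PT.snd'
    refine PT.pair (PT.pair (PT.pair ?_ (PT.const 0)) (hW.comp ha)) (PT.const true)
    exact PT.mul (hs.comp ha) (PT.add (PT.mul (PT.const 2) (PT.mul (PT.add he (PT.const 1))
      (hLam.comp ha))) (PT.const 1))

theorem PT_length {φ : α → CNF3} (hφ : PT A φ) (k : ℕ) : PT A (fun a => k * (φ a).length) :=
  (PT.const k).mul hφ.length

theorem PT_qq {φ : α → CNF3} (hφ : PT A φ) : PT A (fun a => Alg.qq (φ a)) :=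
  (PT.const 1000).mul ((((PT_length hφ 4).add (PT.const 1)).add (PT_length hφ 6)).add (PT.const 1))

theorem PBd_length {φ : α → CNF3} (hφ : PT A φ) (k : ℕ) : PBd (fun a => k * (φ a).length) :=
  (PBd.const k).mul (PBd.length hφ)

theorem PBd_qq {φ : α → CNF3} (hφ : PT A φ) : PBd (fun a => Alg.qq (φ a)) :=
  (PBd.const 1000).mul ((((PBd_length hφ 4).add (PBd.const 1)).add (PBd_length hφ 6)).add
    (PBd.const 1))

theorem PT_qqPow {φ : α → CNF3} (hφ : PT A φ) (k : ℕ) : PT A (fun a => Alg.qq (φ a) ^ k) :=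
  (PT_qq hφ).powConst k

theorem PBd_qqPow {φ : α → CNF3} (hφ : PT A φ) (k : ℕ) : PBd (fun a => Alg.qq (φ a) ^ k) :=
  (PBd_qq hφ).pow k

theorem PT_cellsOf {φ : α → CNF3} (hφ : PT A φ) : PT A (fun a => Alg.cellsOf (φ a)) := by
  unfold Alg.cellsOf
  exact PT_cellsN (PT_allPairs hφ) ((PT_length hφ 4).add (PT.const 1))
    ((PBd_length hφ 4).add (PBd.const 1)) (PT_length hφ 6) (PBd_length hφ 6) (PT_qqPow hφ 212)
    (PT_qqPow hφ 32) (PT_qqPow hφ 34) ((PT.const 2).mul (PT_qqPow hφ 57)) (PT_qqPow hφ 67)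
    (((PT_length hφ 6).add (PT.const 2)).mul ((PT.const 2).mul (PT_qqPow hφ 57)))
    (((PBd_length hφ 6).add (PBd.const 2)).mul ((PBd.const 2).mul (PBd_qqPow hφ 57)))

theorem PT_sitesOf {φ : α → CNF3} (hφ : PT A φ) : PT A (fun a => Alg.sitesOf (φ a)) := by
  unfold Alg.sitesOf
  refine PT.flatMap (f := fun a => Alg.twoSites (Alg.qq (φ a) ^ 67)) (PT_cellsOf hφ) ?_
  have hW : PT A (fun q : α × Alg.CellN => Alg.qq (φ q.1) ^ 67) := PT_qqPow (hφ.comp PT.fst') 67
  have hc : PT A (fun q : α × Alg.CellN => q.2) := PT.snd'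
  refine PT.cons (PT.pair (PT.pair hc.fst.fst.fst (PT.pair hc.fst.fst.snd
    (PT.add hW hc.fst.snd))) hc.snd) (PT.cons (PT.pair (PT.pair hc.fst.fst.fst
    (PT.pair hc.fst.fst.snd (PT.sub hW hc.fst.snd))) hc.snd.not) (PT.const []))

/-! ### The sum of the inverse distances -/

theorem isqrt_eq (v : ℕ) : Alg.isqrt v = Nat.sqrt v := by
  unfold Alg.isqrt
  have h : ((List.range (v + 1)).filter fun s => decide (s * s ≤ v)) =
      List.range (Nat.sqrt v + 1) := by
    have h1 : v + 1 = (Nat.sqrt v + 1) + (v - Nat.sqrt v) := by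
      have := Nat.sqrt_le_self v
      omega
    rw [h1, List.range_add, List.filter_append]
    have h2 : (List.filter (fun s => decide (s * s ≤ v)) (List.range (Nat.sqrt v + 1))) =
        List.range (Nat.sqrt v + 1) := by
      rw [List.filter_eq_self]
      intro s hs
      have := List.mem_range.1 hs
      exact decide_eq_true (Nat.le_sqrt.1 (by omega))
    have h3 : (List.filter (fun s => decide (s * s ≤ v))
        (List.map (fun x => Nat.sqrt v + 1 + x) (List.range (v - Nat.sqrt v)))) = [] := by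
      rw [List.filter_eq_nil_iff]
      intro s hs
      obtain ⟨x, _, rfl⟩ := List.mem_map.1 hs
      rw [decide_eq_true_eq, not_le]
      exact Nat.sqrt_lt.1 (by omega)
    rw [h2, h3, List.append_nil]
  rw [h, List.length_range]
  rfl

theorem PT_sqd {f g : α → ℕ} (hf : PT A f) (hg : PT A g) :
    PT A (fun a => Alg.sqd (f a) (g a)) :=
  ((hf.sub hg).powConst 2).add ((hg.sub hf).powConst 2)

theorem PT_sqDist {f g : α → ℕ × ℕ × ℕ} (hf : PT A f) (hg : PT A g) :
    PT A (fun a => Alg.sqDist (f a) (g a)) :=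
  ((PT_sqd hf.fst hg.fst).add (PT_sqd hf.snd.fst hg.snd.fst)).add (PT_sqd hf.snd.snd hg.snd.snd)

theorem PT_pairTerm {P : α → ℕ} {f g : α → Alg.SiteN} (hP : PT A P) (hf : PT A f) (hg : PT A g) :
    PT A (fun a => Alg.pairTerm (P a) (f a) (g a)) := by
  unfold Alg.pairTerm
  refine PT.ite (p := fun a => ((f a).2 && (g a).2) = true)
    ((hf.snd.and hg.snd).congr fun a => by simp) (PT.const 0) ?_
  exact (PT.sqrt ((hP.powConst 2).div (PT_sqDist hf.fst hg.fst))).congr fun a => (isqrt_eq _).symm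

theorem PT_pairSum {P : α → ℕ} {l : α → List Alg.SiteN} (hP : PT A P) (hl : PT A l) :
    PT A (fun a => Alg.pairSum (P a) (l a)) := by
  unfold Alg.pairSum
  refine PT.sum (PT.map (f := fun a p => ((l a).map fun p' => Alg.pairTerm (P a) p p').sum) hl ?_)
  refine PT.sum (PT.map (f := fun (q : α × Alg.SiteN) p' => Alg.pairTerm (P q.1) q.2 p')
    (hl.comp PT.fst') ?_)
  exact PT_pairTerm (hP.comp PT.fst'.fst) PT.fst'.snd PT.snd'

/-! ### The thresholds -/

theorem PT_posFirst {φ : α → CNF3} (hφ : PT A φ) : PT A (fun a => Alg.posFirst (φ a)) := by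
  unfold Alg.posFirst
  exact (PT.filter (f := fun _ (c : Lit × Lit × Lit) => c.1.2) hφ PT.snd'.fst.snd).length

theorem PT_lam (C₀ : ℕ) {φ : α → CNF3} (hφ : PT A φ) : PT A (fun a => Alg.lam C₀ (φ a)) :=
  ((PT.const C₀).mul (PT_qqPow hφ 800)).powConst 3

theorem PBd_lam (C₀ : ℕ) {φ : α → CNF3} (hφ : PT A φ) : PBd (fun a => Alg.lam C₀ (φ a)) :=
  ((PBd.const C₀).mul (PBd_qqPow hφ 800)).pow 3

theorem PT_digits (C₀ : ℕ) {φ : α → CNF3} (hφ : PT A φ) : PT A (fun a => Alg.digits C₀ (φ a)) :=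
  ((PT.const 64).mul (PT_qqPow hφ 671)).mul (PT_lam C₀ hφ)

theorem PBd_digits (C₀ : ℕ) {φ : α → CNF3} (hφ : PT A φ) : PBd (fun a => Alg.digits C₀ (φ a)) :=
  ((PBd.const 64).mul (PBd_qqPow hφ 671)).mul (PBd_lam C₀ hφ)

theorem PT_den (C₀ : ℕ) {φ : α → CNF3} (hφ : PT A φ) : PT A (fun a => Alg.den C₀ (φ a)) :=
  (((PT.const 16).mul (PT_qqPow hφ 671)).mul (PT_lam C₀ hφ)).mul (PT_qqPow hφ 800)

theorem PT_numA (C₀ : ℕ) {φ : α → CNF3} (hφ : PT A φ) : PT A (fun a => Alg.numA C₀ (φ a)) :=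
  ((((PT.const 8).mul (PT_qqPow hφ 671)).mul ((((PT_cellsOf hφ).length.mul (PT_lam C₀ hφ)).mul
    (PT_qqPow hφ 800)).add (PT_pairSum (PT_qqPow hφ 800) (PT_sitesOf hφ)))).add
    (((PT.const 8).mul (PT_qqPow hφ 800)).mul (PT_posFirst hφ))).sub
      ((PT.const 2).mul (PT_qqPow hφ 800))

theorem PT_numB (C₀ : ℕ) {φ : α → CNF3} (hφ : PT A φ) : PT A (fun a => Alg.numB C₀ (φ a)) :=
  (PT_numA C₀ hφ).sub ((PT.const 4).mul (PT_qqPow hφ 800))

theorem PT_oddNum {k num den : α → ℕ} (hk : PT A k) (hkb : PBd k) (hn : PT A num)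
    (hd : PT A den) : PT A (fun a => Alg.oddNum (k a) (num a) (den a)) :=
  ((PT.const 2).mul ((hn.mul (PT.pow (PT.const 2) (hk.sub (PT.const 1))
    (hkb.mono fun _ => Nat.sub_le _ _))).div hd)).add (PT.const 1)

/-! ### The code of the instance -/

theorem pairW_eq (u v : List Bool) : Vale.Agent.P333.pairW u v = pr u v := by
  unfold Vale.Agent.P333.pairW
  induction u with
  | nil => rfl
  | cons b u ih => simpa [pr] using ih

/-- A rational number in lowest terms, as a signed numerator and a denominator. -/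
def ratR (s : Bool) (n d : ℕ) : Raw × ℕ := (⟨s :: n.bits⟩, d)

theorem PT_ratR {n d : α → ℕ} (s : Bool) (hn : PT A n) (hd : PT A d) :
    PT A (fun a => ratR s (n a) (d a)) := by
  refine PT.pair ?_ hd
  obtain ⟨F, hF, hF'⟩ := hn
  exact ⟨_, (FP.cons s).comp hF, fun a => by rw [hF']; rfl⟩

theorem ratW_natCast (n : ℕ) : ratW (n : ℚ) = enc (ratR false n 1) := by
  unfold ratW intW ratR
  rw [pairW_eq, Rat.num_natCast, Rat.den_natCast]
  rfl

theorem odd_oddNum (k num den : ℕ) : Alg.oddNum k num den % 2 = 1 := by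
  unfold Alg.oddNum
  omega

theorem ratW_threshold (k num den : ℕ) :
    ratW (Alg.threshold k num den) = enc (ratR true (Alg.oddNum k num den) (2 ^ k)) := by
  have hodd := odd_oddNum k num den
  have hpos : 0 < Alg.oddNum k num den := by omega
  set o := Alg.oddNum k num den with ho
  have h1 : Alg.threshold k num den = (((-(o : ℤ) : ℤ) : ℚ) / (((2 ^ k : ℕ) : ℤ) : ℚ)) := by
    unfold Alg.threshold
    rw [← ho]
    push_cast
    ring
  have hb0 : (0 : ℤ) < ((2 ^ k : ℕ) : ℤ) := by positivity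
  have hcop : Nat.Coprime (-(o : ℤ)).natAbs ((2 ^ k : ℕ) : ℤ).natAbs := by
    rw [Int.natAbs_neg, Int.natAbs_natCast, Int.natAbs_natCast]
    refine Nat.Coprime.pow_right k ?_
    rw [Nat.coprime_comm]
    exact Nat.coprime_two_left.2 (Nat.odd_iff.2 hodd)
  have hnum := Rat.num_div_eq_of_coprime hb0 hcop
  have hden := Rat.den_div_eq_of_coprime hb0 hcop
  rw [← h1] at hnum hden
  have hden' : (Alg.threshold k num den).den = 2 ^ k := by exact_mod_cast hden
  unfold ratW intW ratR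
  rw [pairW_eq, hnum, hden', Int.natAbs_neg, Int.natAbs_natCast]
  have h2 : decide (-(o : ℤ) < 0) = true := by
    rw [decide_eq_true_eq]; omega
  rw [h2]
  rfl

theorem listW_map {ι β γ : Type} [Enc γ] (c : β → List Bool) (f : ι → β) (g : ι → γ)
    (h : ∀ p, c (f p) = enc (g p)) (l : List ι) :
    Vale.Agent.P333.listW c (l.map f) = enc (l.map g) := by
  induction l with
  | nil => rfl
  | cons a l ih =>
    rw [List.map_cons, List.map_cons, show Vale.Agent.P333.listW c (f a :: l.map f) =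
      Vale.Agent.P333.pairW (c (f a)) (Vale.Agent.P333.listW c (l.map f)) from rfl, ih, enc_cons,
      pairW_eq, h]

/-- The typed code of an instance. -/
def code (C₀ : ℕ) (φ : CNF3) :
    List (((Raw × ℕ) × (Raw × ℕ) × (Raw × ℕ)) × ℕ) × Un × (Raw × ℕ) × (Raw × ℕ) :=
  ((Alg.sitesOf φ).map fun p =>
    ((ratR false (Alg.lam C₀ φ * p.1.1) 1, ratR false (Alg.lam C₀ φ * p.1.2.1) 1,
      ratR false (Alg.lam C₀ φ * p.1.2.2) 1), 1),
    ⟨(Alg.cellsOf φ).length⟩,
    ratR true (Alg.oddNum (Alg.digits C₀ φ) (Alg.numA C₀ φ) (Alg.den C₀ φ))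
      (2 ^ Alg.digits C₀ φ),
    ratR true (Alg.oddNum (Alg.digits C₀ φ) (Alg.numB C₀ φ) (Alg.den C₀ φ))
      (2 ^ Alg.digits C₀ φ))

theorem enc_code (C₀ : ℕ) (φ : CNF3) : enc (code C₀ φ) = instW (Alg.inst C₀ φ) := by
  unfold code instW Alg.inst
  simp only
  rw [pairW_eq, pairW_eq, pairW_eq,
    enc_pair, enc_pair, enc_pair, ratW_threshold, ratW_threshold, enc_un]
  congr 1
  symm
  refine listW_map _ _ _ (fun p => ?_) _
  unfold nucleusW
  simp only
  rw [pairW_eq, pairW_eq, pairW_eq,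
    ratW_natCast, ratW_natCast, ratW_natCast]
  rfl

theorem PT_code (C₀ : ℕ) : PT (∅ : Set Word) (code C₀) := by
  have hφ : PT (∅ : Set Word) (fun φ : CNF3 => φ) := PT.id
  have hl := PT_lam (A := ∅) C₀ hφ
  have hk := PT_digits (A := ∅) C₀ hφ
  have hkb := PBd_digits (A := ∅) C₀ hφ
  have hpow : PT (∅ : Set Word) (fun φ : CNF3 => 2 ^ Alg.digits C₀ φ) :=
    PT.pow (PT.const 2) hk hkb
  unfold code
  refine PT.pair (PT.map (f := fun φ (p : Alg.SiteN) =>
    ((ratR false (Alg.lam C₀ φ * p.1.1) 1, ratR false (Alg.lam C₀ φ * p.1.2.1) 1,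
      ratR false (Alg.lam C₀ φ * p.1.2.2) 1), 1)) (PT_sitesOf hφ) ?_)
    (PT.pair (PT.mkUn (PT_cellsOf hφ).length (PBd.length (PT_cellsOf hφ)))
      (PT.pair (PT_ratR true (PT_oddNum hk hkb (PT_numA C₀ hφ) (PT_den C₀ hφ)) hpow)
        (PT_ratR true (PT_oddNum hk hkb (PT_numB C₀ hφ) (PT_den C₀ hφ)) hpow)))
  have hl' : PT (∅ : Set Word) (fun q : CNF3 × Alg.SiteN => Alg.lam C₀ q.1) := hl.comp PT.fst'
  have hp : PT (∅ : Set Word) (fun q : CNF3 × Alg.SiteN => q.2) := PT.snd'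
  exact PT.pair (PT.pair (PT_ratR false (hl'.mul hp.fst.fst) (PT.const 1))
    (PT.pair (PT_ratR false (hl'.mul hp.fst.snd.fst) (PT.const 1))
      (PT_ratR false (hl'.mul hp.fst.snd.snd) (PT.const 1)))) (PT.const 1)

/-- Block T1. -/
theorem algPTStmt : AlgPTStmt := by
  intro C₀ _
  obtain ⟨g, hg, hg'⟩ := PT_code C₀
  exact ⟨g, hg, fun φ => by rw [hg', enc_code]⟩

end H399

end Vale.Agent.P370
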