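import Vale.Agent.P370.H399.T2f

/-!
Block T2: the reduction is correct.
-/

namespace Vale.Agent.P370

open Vale.Agent.Lib.PCP (CNF3 Lit)
open Vale.Agent.P363.Stmt

namespace H399

/-- The length of the buses. -/
def XX (φ : CNF3) : ℕ := (6 * φ.length + 2) * (2 * Alg.qq φ ^ 57)

/-- The number of the cells. -/
theorem card_cell (φ : CNF3) (X : ℕ) :
    Fintype.card ((xI φ).Cell X) = (4 * φ.length + 1) * X + 6 * φ.length := by
  rw [Fintype.card_sum, Fintype.card_prod, Fintype.card_fin, Fintype.card_fin, Fintype.card_fin]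
  rfl

theorem qq_eq (φ : CNF3) : Alg.qq φ = 1000 * (10 * φ.length + 2) := by
  unfold Alg.qq; omega

theorem card_le (φ : CNF3) : Fintype.card ((xI φ).Cell (XX φ)) ≤ Alg.qq φ ^ 59 := by
  rw [card_cell]
  unfold XX
  have hq := qq_eq φ
  set q := Alg.qq φ
  set s := 10 * φ.length + 2 with hs
  have h1 : 4 * φ.length + 1 ≤ s := by omega
  have h2 : 6 * φ.length + 2 ≤ s := by omega
  have h3 : 6 * φ.length ≤ s := by omega
  have h4 : 1 ≤ q ^ 57 := Nat.one_le_pow _ _ (by omega)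
  have h5 : 1 ≤ s := by omega
  calc (4 * φ.length + 1) * ((6 * φ.length + 2) * (2 * q ^ 57)) + 6 * φ.length
      ≤ s * (s * (2 * q ^ 57)) + s := by gcongr
    _ ≤ s * (s * (2 * q ^ 57)) + s * (s * q ^ 57) := by
        gcongr
        exact Nat.le_mul_of_pos_right _ (Nat.mul_pos h5 h4)
    _ = 3 * (s * s * q ^ 57) := by ring
    _ ≤ 1000000 * (s * s * q ^ 57) := by gcongr; norm_num
    _ = q ^ 2 * q ^ 57 := by rw [hq]; ring
    _ = q ^ 59 := by ring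

theorem card_pos (φ : CNF3) : 1 ≤ Fintype.card ((xI φ).Cell (XX φ)) := by
  rw [card_cell]
  unfold XX
  have h4 : 1 ≤ Alg.qq φ ^ 57 := Nat.one_le_pow _ _ (by rw [qq_eq]; omega)
  have h1 : 1 ≤ (4 * φ.length + 1) * ((6 * φ.length + 2) * (2 * Alg.qq φ ^ 57)) := by
    refine Nat.mul_pos (by omega) (Nat.mul_pos (by omega) (by omega))
  omega

theorem cellsOf_eq (φ : CNF3) : Alg.cellsOf φ = (cellL (xI φ) (XX φ)).map
    (cellN (xI φ) (Alg.qq φ ^ 212) (Alg.qq φ ^ 32) (Alg.qq φ ^ 34) (2 * Alg.qq φ ^ 57)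
      (Alg.qq φ ^ 67)) := cellsN_eq φ _ _ _ _ _ _

theorem length_cellsOf (φ : CNF3) :
    (Alg.cellsOf φ).length = Fintype.card ((xI φ).Cell (XX φ)) := by
  rw [cellsOf_eq, List.length_map, length_cellL]

theorem sitesOf_eq (φ : CNF3) : Alg.sitesOf φ = (siteL (xI φ) (XX φ)).map
    (siteN (xI φ) (Alg.qq φ ^ 212) (Alg.qq φ ^ 32) (Alg.qq φ ^ 34) (2 * Alg.qq φ ^ 57)
      (Alg.qq φ ^ 67)) := by
  unfold Alg.sitesOf
  rw [cellsOf_eq, flatMap_twoSites]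

theorem nuclei_eq (C₀ : ℕ) (φ : CNF3) : (Alg.inst C₀ φ).nuclei =
    (siteL (xI φ) (XX φ)).map fun p => nuc (Alg.lam C₀ φ)
      (siteN (xI φ) (Alg.qq φ ^ 212) (Alg.qq φ ^ 32) (Alg.qq φ ^ 34) (2 * Alg.qq φ ^ 57)
      (Alg.qq φ ^ 67) p) := by
  unfold Alg.inst
  simp only
  rw [sitesOf_eq, List.map_map]
  rfl

theorem groundEnergy_congr {l l' : List ((ℚ × ℚ × ℚ) × ℕ)} (h : l = l') (N : ℕ) :
    groundEnergy N (fun j : Fin l.length => (l.get j).2) (fun j => point (l.get j).1) =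
      groundEnergy N (fun j : Fin l'.length => (l'.get j).2) (fun j => point (l'.get j).1) := by
  subst h; rfl

/-- The facts about the parameters. -/
theorem params (φ : CNF3) : 1 ≤ Alg.qq φ ^ 32 ∧ 1 ≤ Alg.qq φ ^ 34 ∧ 1 ≤ 2 * Alg.qq φ ^ 57 ∧
    1 ≤ Alg.qq φ ^ 212 ∧ 20 + 2 * (xI φ).m ≤ Alg.qq φ ^ 67 ∧
    4 * Alg.qq φ ^ 67 * (Fintype.card ((xI φ).Cell (XX φ)) + 1) ≤ 2 * Alg.qq φ ^ 212 ∧
    1 ≤ Alg.qq φ ^ 800 := by
  have hK := card_le φ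
  have hq := qq_eq φ
  have hq1 : 2000 ≤ Alg.qq φ := by rw [hq]; omega
  have hm : 20 + 2 * (xI φ).m ≤ Alg.qq φ := by rw [xI_m, hq]; omega
  revert hK hq hq1 hm
  generalize Alg.qq φ = q
  generalize Fintype.card ((xI φ).Cell (XX φ)) = K
  generalize (xI φ).m = m
  intro hK hq hq1 hm
  have h1 : ∀ k, 1 ≤ q ^ k := fun k => Nat.one_le_pow _ _ (by omega)
  refine ⟨h1 _, h1 _, by have := h1 57; omega, h1 _, hm.trans (Nat.le_self_pow (by norm_num) _),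
    ?_, h1 _⟩
  calc 4 * q ^ 67 * (K + 1) ≤ 4 * q ^ 67 * (q ^ 59 + q ^ 59) := by
        have := h1 59
        gcongr
    _ = 8 * q ^ 126 := by ring
    _ ≤ q ^ 86 * q ^ 126 := by
        gcongr
        calc 8 ≤ 2000 := by norm_num
          _ ≤ q := hq1
          _ ≤ q ^ 86 := Nat.le_self_pow (by norm_num) _
    _ = q ^ 212 := by ring
    _ ≤ 2 * q ^ 212 := by omega

attribute [local irreducible] Alg.qq Alg.pairSum

/-- The scale is large. -/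
theorem mu_bound {q K C c : ℝ} (hq : 1000 ≤ q) (hK0 : 0 ≤ K) (hK : K ≤ q ^ 59) (hC : 0 < C)
    (hc : C ≤ c) : C * (2 * K) ≤ c * q ^ 800 := by
  have hq0 : 0 < q := by linarith
  have hc0 : 0 < c := lt_of_lt_of_le hC hc
  have h3 : (2 : ℝ) ≤ q ^ 741 := by
    calc (2 : ℝ) ≤ 1000 := by norm_num
      _ ≤ q := hq
      _ ≤ q ^ 741 := le_self_pow₀ (by linarith) (by norm_num)
  calc C * (2 * K) ≤ c * (2 * q ^ 59) := by gcongr
    _ ≤ c * (q ^ 741 * q ^ 59) := by gcongr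
    _ = c * q ^ 800 := by ring

theorem E0_eq (C₀ : ℕ) (φ : CNF3) (L : List ((ℚ × ℚ × ℚ) × ℕ)) (h : (Alg.inst C₀ φ).nuclei = L)
    (hL : ∀ p ∈ L, p.2 = 1) : (Alg.inst C₀ φ).E₀ =
      groundEnergy (Alg.cellsOf φ).length (fun _ : Fin L.length => 1)
        (fun j => point (L.get j).1) := by
  have h1 : (Alg.inst C₀ φ).E₀ = groundEnergy (Alg.cellsOf φ).length
      (fun j : Fin (Alg.inst C₀ φ).nuclei.length => ((Alg.inst C₀ φ).nuclei.get j).2)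
      (fun j => point ((Alg.inst C₀ φ).nuclei.get j).1) := rfl
  rw [h1, groundEnergy_congr h]
  congr 1
  funext j
  exact hL _ (List.get_mem _ _)

theorem arith_up {E K l S P w p err t : ℝ} (hl : 0 ≤ l) (herr : 2 * err ≤ w / 8)
    (ht : t ≤ l * (w / 8)) (h : E ≤ -K / 2 + l * (-S / P + w * (-4 * p + 1 / 2) + 2 * err) + t) :
    E ≤ -K / 2 + l * (-S / P + w * (-4 * p + 3 / 4)) := by
  have h1 := mul_le_mul_of_nonneg_left herr hl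
  have h2 : l * (-S / P + w * (-4 * p + 1 / 2) + 2 * err) =
      l * (-S / P) + l * (w * (-4 * p + 1 / 2)) + l * (2 * err) := by ring
  have h3 : l * (-S / P + w * (-4 * p + 3 / 4)) = l * (-S / P) + l * (w * (-4 * p + 1 / 2)) +
      2 * (l * (w / 8)) := by ring
  rw [h2] at h
  rw [h3]
  linarith

theorem arith_low {E K l S P w p err t D : ℝ} (hl : 0 ≤ l) (herr : 2 * err ≤ w / 8)
    (hD : D / P ≤ w / 8) (ht : t ≤ l * (w / 8))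
    (h : -K / 2 + l * (-(S + D) / P + w * (-4 * p + 7 / 2) - 2 * err) - t ≤ E) :
    -K / 2 + l * (-S / P + w * (-4 * p + 25 / 8)) ≤ E := by
  have h1 := mul_le_mul_of_nonneg_left herr hl
  have h1' := mul_le_mul_of_nonneg_left hD hl
  have h2 : l * (-(S + D) / P + w * (-4 * p + 7 / 2) - 2 * err) =
      l * (-S / P) - l * (D / P) + l * (w * (-4 * p + 7 / 2)) - l * (2 * err) := by ring
  have h3 : l * (-S / P + w * (-4 * p + 25 / 8)) = l * (-S / P) + l * (w * (-4 * p + 7 / 2)) -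
      3 * (l * (w / 8)) := by ring
  rw [h2] at h
  rw [h3]
  linarith

/-- The energy of the instance. -/
theorem energy_bounds (hL : LowerStmt) (hU : UpperStmt) (hB : BddStmt) (hP5 : CellStmt)
    (hP6 : XorInst.IsingStmt) : ∃ C₀ : ℕ, 1 ≤ C₀ ∧ ∀ φ : CNF3,
      (φ.Sat → (Alg.inst C₀ φ).E₀ ≤
        -((Alg.cellsOf φ).length : ℝ) / 2 + 1 / (Alg.lam C₀ φ : ℝ) *
          (-(Alg.pairSum (Alg.qq φ ^ 800) (Alg.sitesOf φ) : ℝ) / (2 * (Alg.qq φ : ℝ) ^ 800) +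
            1 / (8 * (Alg.qq φ : ℝ) ^ 671) * (-4 * Alg.posFirst φ + 3 / 4))) ∧
      (¬ φ.Sat →
        -((Alg.cellsOf φ).length : ℝ) / 2 + 1 / (Alg.lam C₀ φ : ℝ) *
          (-(Alg.pairSum (Alg.qq φ ^ 800) (Alg.sitesOf φ) : ℝ) / (2 * (Alg.qq φ : ℝ) ^ 800) +
            1 / (8 * (Alg.qq φ : ℝ) ^ 671) * (-4 * Alg.posFirst φ + 25 / 8)) ≤
          (Alg.inst C₀ φ).E₀) := by
  obtain ⟨C, hC, hE⟩ := E0_gen hL hU hB hP5 hP6
  obtain ⟨C₀, hC₀⟩ := exists_nat_ge (max C 1)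
  have hC₀1 : (1 : ℝ) ≤ C₀ := (le_max_right _ _).trans hC₀
  have hC₀C : C ≤ C₀ := (le_max_left _ _).trans hC₀
  have hC₀N : 1 ≤ C₀ := by exact_mod_cast hC₀1
  refine ⟨C₀, hC₀N, fun φ => ?_⟩
  obtain ⟨p1, p2, p3, p4, p5, p6, p7⟩ := params φ
  have hKle := card_le φ
  have hKpos := card_pos φ
  have hq1 : 2000 ≤ Alg.qq φ := by rw [qq_eq]; omega
  have hX : XX φ = ((xI φ).m + 2) * (2 * Alg.qq φ ^ 57) := rfl
  have hμ1 : 1 ≤ C₀ * Alg.qq φ ^ 800 := Nat.mul_pos hC₀N p7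
  have hqR : (1000 : ℝ) ≤ Alg.qq φ := by
    have : (2000 : ℝ) ≤ Alg.qq φ := by exact_mod_cast hq1
    linarith
  have hK0 : (0 : ℝ) ≤ ((Fintype.card ((xI φ).Cell (XX φ)) : ℕ) : ℝ) := Nat.cast_nonneg _
  have hKR : ((Fintype.card ((xI φ).Cell (XX φ)) : ℕ) : ℝ) ≤ (Alg.qq φ : ℝ) ^ 59 := by
    rw [← Nat.cast_pow]; exact Nat.cast_le.2 hKle
  have hμc : ((C₀ * Alg.qq φ ^ 800 : ℕ) : ℝ) = (C₀ : ℝ) * (Alg.qq φ : ℝ) ^ 800 := by
    rw [Nat.cast_mul, Nat.cast_pow]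
  have h2Kc : ((2 * Fintype.card ((xI φ).Cell (XX φ)) : ℕ) : ℝ) =
      2 * (Fintype.card ((xI φ).Cell (XX φ)) : ℝ) := by
    rw [Nat.cast_mul]; rfl
  have hμ : C * (2 * Fintype.card ((xI φ).Cell (XX φ)) : ℕ) ≤ (C₀ * Alg.qq φ ^ 800 : ℕ) := by
    rw [hμc, h2Kc]
    exact mu_bound hqR hK0 hKR hC hC₀C
  obtain ⟨e, he⟩ := exists_equiv (siteL (xI φ) (XX φ)) (nodup_siteL _) (mem_siteL _)
    (fun p => nuc (Alg.lam C₀ φ)
      (siteN (xI φ) (Alg.qq φ ^ 212) (Alg.qq φ ^ 32) (Alg.qq φ ^ 34) (2 * Alg.qq φ ^ 57)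
      (Alg.qq φ ^ 67) p))
  have hlamR : ((Alg.lam C₀ φ : ℕ) : ℝ) = ((C₀ * Alg.qq φ ^ 800 : ℕ) : ℝ) ^ 3 := by
    unfold Alg.lam; rw [Nat.cast_pow]
  rw [E0_eq C₀ φ _ (nuclei_eq C₀ φ) (by
    intro p hp
    obtain ⟨x, _, rfl⟩ := List.mem_map.1 hp
    rfl)]
  have hpt : ∀ j, point ((List.map (fun p => nuc (Alg.lam C₀ φ)
      (siteN (xI φ) (Alg.qq φ ^ 212) (Alg.qq φ ^ 32) (Alg.qq φ ^ 34) (2 * Alg.qq φ ^ 57)
      (Alg.qq φ ^ 67) p)) (siteL (xI φ) (XX φ))).get j).1 = point (nuc (Alg.lam C₀ φ)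
      (siteN (xI φ) (Alg.qq φ ^ 212) (Alg.qq φ ^ 32) (Alg.qq φ ^ 34) (2 * Alg.qq φ ^ 57)
      (Alg.qq φ ^ 67) (e j))).1 := fun j => by rw [he j]
  obtain ⟨hS, hN⟩ := hE φ (Alg.qq φ ^ 212) (Alg.qq φ ^ 32) (Alg.qq φ ^ 34) (2 * Alg.qq φ ^ 57)
    (Alg.qq φ ^ 67) (XX φ) (Alg.qq φ ^ 800) (C₀ * Alg.qq φ ^ 800) rfl rfl rfl rfl hX
    p1 p2 p3 p4 p5 p6 hKpos p7 hμ1 hμ _ _ rfl rfl _
    (fun j => point ((List.map (fun p => nuc (Alg.lam C₀ φ)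
      (siteN (xI φ) (Alg.qq φ ^ 212) (Alg.qq φ ^ 32) (Alg.qq φ ^ 34) (2 * Alg.qq φ ^ 57)
      (Alg.qq φ ^ 67) p)) (siteL (xI φ) (XX φ))).get j).1) e
    (fun j k => by
      show ‖point _ - point _‖ = _
      rw [he j, he k, dist_point, hlamR, sqrt_sqDist (xI φ) _ _ _ _ _ p5])
  have hw1 : ((Alg.qq φ ^ 67 : ℕ) : ℝ) / ((Alg.qq φ ^ 34 : ℕ) : ℝ) ^ 3 /
      (2 * ((Alg.qq φ ^ 212 : ℕ) : ℝ)) ^ 3 = 1 / (8 * (Alg.qq φ : ℝ) ^ 671) := by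
    rw [Nat.cast_pow, Nat.cast_pow, Nat.cast_pow]
    exact w_eq (by linarith)
  have hn1 := num1 hqR hK0 hKR
  have hn2 := num2 hqR hK0 hKR
  have hn3 := num3 hqR hK0 hKR hC hC₀C
  have hlen : ((Alg.cellsOf φ).length : ℝ) = (Fintype.card ((xI φ).Cell (XX φ)) : ℝ) := by
    rw [length_cellsOf]
  have herr1 : 3 * (Fintype.card ((xI φ).Cell (XX φ)) : ℝ) ^ 2 * ((Alg.qq φ ^ 67 : ℕ) : ℝ) ^ 4 /
      (2 * ((Alg.qq φ ^ 212 : ℕ) : ℝ)) ^ 5 = 3 * (Fintype.card ((xI φ).Cell (XX φ)) : ℝ) ^ 2 *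
      ((Alg.qq φ : ℝ) ^ 67) ^ 4 / (2 * (Alg.qq φ : ℝ) ^ 212) ^ 5 := by
    rw [Nat.cast_pow, Nat.cast_pow]
  rw [hw1, herr1] at hS hN
  rw [h2Kc, hμc, ← sitesOf_eq, Nat.cast_pow] at hS hN
  rw [hlamR, hμc, length_cellsOf]
  have hl : 0 ≤ 1 / ((C₀ : ℝ) * (Alg.qq φ : ℝ) ^ 800) ^ 3 :=
    one_div_nonneg.2 (pow_nonneg (mul_nonneg (by linarith) (pow_nonneg (by linarith) _)) _)
  exact ⟨fun h => arith_up hl hn1 hn3 (hS h), fun h => arith_low hl hn1 hn2 hn3 (hN h)⟩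

theorem numA_real (Q lam P K S p : ℕ) (hQ : 1 ≤ Q) (hlam : 1 ≤ lam) (hP : 1 ≤ P) (hK : 1 ≤ K) :
    ((8 * Q * (K * lam * P + S) + 8 * P * p - 2 * P : ℕ) : ℝ) / ((16 * Q * lam * P : ℕ) : ℝ) =
      (K : ℝ) / 2 + 1 / (lam : ℝ) * ((S : ℝ) / (2 * P) + 1 / (8 * (Q : ℝ)) * (4 * p - 1)) := by
  have h1 : 1 * (1 * 1 * P) ≤ Q * (K * lam * P) :=
    Nat.mul_le_mul hQ (Nat.mul_le_mul (Nat.mul_le_mul hK hlam) le_rfl)
  have h2 : 2 * P ≤ 8 * Q * (K * lam * P + S) + 8 * P * p := by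
    have : 8 * Q * (K * lam * P + S) = 8 * (Q * (K * lam * P)) + 8 * Q * S := by ring
    rw [this]
    omega
  rw [Nat.cast_sub h2]
  push_cast
  have hQ0 : (Q : ℝ) ≠ 0 := by exact_mod_cast (by omega : Q ≠ 0)
  have hP0 : (P : ℝ) ≠ 0 := by exact_mod_cast (by omega : P ≠ 0)
  have hl0 : (lam : ℝ) ≠ 0 := by exact_mod_cast (by omega : lam ≠ 0)
  field_simp
  ring

theorem numB_real (Q lam P K S p : ℕ) (hQ : 1 ≤ Q) (hlam : 1 ≤ lam) (hP : 1 ≤ P) (hK : 1 ≤ K) :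
    ((8 * Q * (K * lam * P + S) + 8 * P * p - 2 * P - 4 * P : ℕ) : ℝ) /
      ((16 * Q * lam * P : ℕ) : ℝ) =
      (K : ℝ) / 2 + 1 / (lam : ℝ) * ((S : ℝ) / (2 * P) + 1 / (8 * (Q : ℝ)) * (4 * p - 3)) := by
  have h1 : 1 * (1 * 1 * P) ≤ Q * (K * lam * P) :=
    Nat.mul_le_mul hQ (Nat.mul_le_mul (Nat.mul_le_mul hK hlam) le_rfl)
  have h2 : 6 * P ≤ 8 * Q * (K * lam * P + S) + 8 * P * p := by
    have : 8 * Q * (K * lam * P + S) = 8 * (Q * (K * lam * P)) + 8 * Q * S := by ring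
    rw [this]
    omega
  rw [Nat.sub_sub, Nat.cast_sub (by omega)]
  push_cast
  have hQ0 : (Q : ℝ) ≠ 0 := by exact_mod_cast (by omega : Q ≠ 0)
  have hP0 : (P : ℝ) ≠ 0 := by exact_mod_cast (by omega : P ≠ 0)
  have hl0 : (lam : ℝ) ≠ 0 := by exact_mod_cast (by omega : lam ≠ 0)
  field_simp
  ring

/-- The digits are small. -/
theorem digit_bound (Q lam : ℕ) (hQ : 1 ≤ Q) (hlam : 1 ≤ lam) :
    (1 : ℝ) / 2 ^ (64 * Q * lam) ≤ 1 / (lam : ℝ) * (1 / (8 * (Q : ℝ)) / 8) := by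
  have hQ0 : (0 : ℝ) < Q := by exact_mod_cast hQ
  have hl0 : (0 : ℝ) < lam := by exact_mod_cast hlam
  have h : ((64 * Q * lam : ℕ) : ℝ) ≤ 2 ^ (64 * Q * lam) := by
    exact_mod_cast (Nat.lt_two_pow_self (n := 64 * Q * lam)).le
  have h2 : 1 / (lam : ℝ) * (1 / (8 * (Q : ℝ)) / 8) = 1 / ((64 * Q * lam : ℕ) : ℝ) := by
    push_cast
    field_simp
    norm_num
  rw [h2]
  refine one_div_le_one_div_of_le ?_ h
  push_cast
  positivity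

theorem thr_up {E K l S P w p d a x : ℝ} (hd : d ≤ l * (w / 8)) (hlw : 0 ≤ l * (w / 8))
    (hx : x = K / 2 + l * (S / P + w * (4 * p - 1)))
    (ha : -x - d ≤ a) (h : E ≤ -K / 2 + l * (-S / P + w * (-4 * p + 3 / 4))) : E ≤ a := by
  have h3 : l * (-S / P + w * (-4 * p + 3 / 4)) = -(l * (S / P + w * (4 * p - 1))) -
      2 * (l * (w / 8)) := by ring
  rw [h3] at h
  linarith

theorem thr_low {E K l S P w p d b x : ℝ} (hd : d ≤ l * (w / 8)) (hlw : 0 ≤ l * (w / 8))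
    (hx : x = K / 2 + l * (S / P + w * (4 * p - 3)))
    (hb : b ≤ -x + d) (h : -K / 2 + l * (-S / P + w * (-4 * p + 25 / 8)) ≤ E) : b ≤ E := by
  have h3 : l * (-S / P + w * (-4 * p + 25 / 8)) = -(l * (S / P + w * (4 * p - 3))) +
      (l * (w / 8)) := by ring
  rw [h3] at h
  linarith

theorem thr_gap {K l S P w p d a b x y : ℝ} (hd : d ≤ l * (w / 8)) (hlw : 0 ≤ l * (w / 8))
    (hx : x = K / 2 + l * (S / P + w * (4 * p - 1)))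
    (hy : y = K / 2 + l * (S / P + w * (4 * p - 3)))
    (ha : a ≤ -x + d) (hb : -y - d ≤ b) : l * (w / 8) ≤ b - a := by
  have h3 : x - y = 16 * (l * (w / 8)) := by rw [hx, hy]; ring
  linarith

/-- The denominator of a threshold. -/
theorem threshold_den (k num den : ℕ) : (Alg.threshold k num den).den = 2 ^ k := by
  have hodd := odd_oddNum k num den
  have hpos : 0 < Alg.oddNum k num den := by omega
  set o := Alg.oddNum k num den with ho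
  have h1 : Alg.threshold k num den = (((-(o : ℤ) : ℤ) : ℚ) / (((2 ^ k : ℕ) : ℤ) : ℚ)) := by
    unfold Alg.threshold
    rw [← ho]
    push_cast
    ring
  have hb0 : (0 : ℤ) < ((2 ^ k : ℕ) : ℤ) := by positivity
  have hcop : Nat.Coprime (-(o : ℤ)).natAbs ((2 ^ k : ℕ) : ℤ).natAbs := by
    rw [Int.natAbs_neg, Int.natAbs_natCast, Int.natAbs_natCast]
    refine Nat.Coprime.pow_right k ?_
    rw [Nat.coprime_comm]
    exact Nat.coprime_two_left.2 (Nat.odd_iff.2 hodd)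
  have hden := Rat.den_div_eq_of_coprime hb0 hcop
  rw [← h1] at hden
  exact_mod_cast hden

/-- The thresholds in terms of the energy. -/
theorem thresholds (C₀ : ℕ) (hC₀ : 1 ≤ C₀) (φ : CNF3) (E : ℝ) :
    (E ≤ -((Alg.cellsOf φ).length : ℝ) / 2 + 1 / (Alg.lam C₀ φ : ℝ) *
          (-(Alg.pairSum (Alg.qq φ ^ 800) (Alg.sitesOf φ) : ℝ) / (2 * (Alg.qq φ : ℝ) ^ 800) +
            1 / (8 * (Alg.qq φ : ℝ) ^ 671) * (-4 * Alg.posFirst φ + 3 / 4)) →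
        E ≤ ((Alg.inst C₀ φ).a : ℝ)) ∧
      (-((Alg.cellsOf φ).length : ℝ) / 2 + 1 / (Alg.lam C₀ φ : ℝ) *
          (-(Alg.pairSum (Alg.qq φ ^ 800) (Alg.sitesOf φ) : ℝ) / (2 * (Alg.qq φ : ℝ) ^ 800) +
            1 / (8 * (Alg.qq φ : ℝ) ^ 671) * (-4 * Alg.posFirst φ + 25 / 8)) ≤ E →
        ((Alg.inst C₀ φ).b : ℝ) ≤ E) ∧
      1 / (((Alg.digits C₀ φ) : ℕ) : ℝ) ≤ ((Alg.inst C₀ φ).b : ℝ) - ((Alg.inst C₀ φ).a : ℝ) := by
  have hqq : 1 ≤ Alg.qq φ := by rw [qq_eq]; omega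
  have hQ : 1 ≤ Alg.qq φ ^ 671 := Nat.one_le_pow _ _ hqq
  have hP : 1 ≤ Alg.qq φ ^ 800 := Nat.one_le_pow _ _ hqq
  have hlam : 1 ≤ Alg.lam C₀ φ := Nat.one_le_pow _ _ (Nat.mul_pos hC₀ hP)
  have hK : 1 ≤ (Alg.cellsOf φ).length := by rw [length_cellsOf]; exact card_pos φ
  have ea : (Alg.inst C₀ φ).a = Alg.threshold (64 * Alg.qq φ ^ 671 * Alg.lam C₀ φ)
      (8 * Alg.qq φ ^ 671 * ((Alg.cellsOf φ).length * Alg.lam C₀ φ * Alg.qq φ ^ 800 +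
        Alg.pairSum (Alg.qq φ ^ 800) (Alg.sitesOf φ)) + 8 * Alg.qq φ ^ 800 * Alg.posFirst φ -
        2 * Alg.qq φ ^ 800) (16 * Alg.qq φ ^ 671 * Alg.lam C₀ φ * Alg.qq φ ^ 800) := rfl
  have eb : (Alg.inst C₀ φ).b = Alg.threshold (64 * Alg.qq φ ^ 671 * Alg.lam C₀ φ)
      (8 * Alg.qq φ ^ 671 * ((Alg.cellsOf φ).length * Alg.lam C₀ φ * Alg.qq φ ^ 800 +
        Alg.pairSum (Alg.qq φ ^ 800) (Alg.sitesOf φ)) + 8 * Alg.qq φ ^ 800 * Alg.posFirst φ -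
        2 * Alg.qq φ ^ 800 - 4 * Alg.qq φ ^ 800)
        (16 * Alg.qq φ ^ 671 * Alg.lam C₀ φ * Alg.qq φ ^ 800) := rfl
  have ed : Alg.digits C₀ φ = 64 * Alg.qq φ ^ 671 * Alg.lam C₀ φ := rfl
  rw [ea, eb, ed]
  have c1 : ((Alg.qq φ : ℝ)) ^ 671 = ((Alg.qq φ ^ 671 : ℕ) : ℝ) := (Nat.cast_pow _ _).symm
  have c2 : ((Alg.qq φ : ℝ)) ^ 800 = ((Alg.qq φ ^ 800 : ℕ) : ℝ) := (Nat.cast_pow _ _).symm
  rw [c1, c2]
  clear ea eb ed c1 c2
  generalize Alg.qq φ ^ 671 = Q at *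
  generalize Alg.pairSum (Alg.qq φ ^ 800) (Alg.sitesOf φ) = S at *
  generalize Alg.qq φ ^ 800 = P at *
  generalize Alg.lam C₀ φ = lam at *
  generalize (Alg.cellsOf φ).length = K at *
  generalize Alg.posFirst φ = p at *
  have hQ0 : (0 : ℝ) < Q := by exact_mod_cast hQ
  have hl0 : (0 : ℝ) < lam := by exact_mod_cast hlam
  have hx := numA_real Q lam P K S p hQ hlam hP hK
  have hy := numB_real Q lam P K S p hQ hlam hP hK
  have hd := digit_bound Q lam hQ hlam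
  have hlw : 0 ≤ 1 / (lam : ℝ) * (1 / (8 * (Q : ℝ)) / 8) := by positivity
  have h64 : 1 ≤ 64 * Q * lam := Nat.mul_pos (Nat.mul_pos (by norm_num) hQ) hlam
  have hden : 0 < 16 * Q * lam * P := Nat.mul_pos (Nat.mul_pos (Nat.mul_pos (by norm_num) hQ) hlam) hP
  obtain ⟨a1, a2⟩ := threshold_bounds (64 * Q * lam)
    (8 * Q * (K * lam * P + S) + 8 * P * p - 2 * P) (16 * Q * lam * P) h64 hden
  obtain ⟨b1, b2⟩ := threshold_bounds (64 * Q * lam)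
    (8 * Q * (K * lam * P + S) + 8 * P * p - 2 * P - 4 * P) (16 * Q * lam * P) h64 hden
  refine ⟨fun h => thr_up hd hlw hx a1 h, fun h => thr_low hd hlw hy b2 h, ?_⟩
  have h1 := thr_gap hd hlw hx hy a2 b1
  have h2 : 1 / (lam : ℝ) * (1 / (8 * (Q : ℝ)) / 8) = 1 / ((64 * Q * lam : ℕ) : ℝ) := by
    push_cast
    field_simp
    norm_num
  rw [h2] at h1
  exact h1

/-- The instance is allowed. -/
theorem valid (C₀ : ℕ) (hC₀ : 1 ≤ C₀) (φ : CNF3) (c : ℕ) (hc : 1 ≤ c) :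
    (Alg.inst C₀ φ).Valid c := by
  have hqq : 1 ≤ Alg.qq φ := by rw [qq_eq]; omega
  have hP : 1 ≤ Alg.qq φ ^ 800 := Nat.one_le_pow _ _ hqq
  have hlam : 1 ≤ Alg.lam C₀ φ := Nat.one_le_pow _ _ (Nat.mul_pos hC₀ hP)
  obtain ⟨p1, p2, p3, p4, p5, p6, p7⟩ := params φ
  refine ⟨?_, ?_, ?_, ?_, ?_⟩
  · rw [nuclei_eq]
    intro h
    have h1 := congrArg List.length h
    rw [List.length_map, length_siteL, Fintype.card_prod, Fintype.card_bool, List.length_nil] at h1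
    have h2 := card_pos φ
    omega
  · rw [nuclei_eq, List.map_map]
    refine (List.nodup_map_iff_inj_on (nodup_siteL _)).2 ?_
    intro p _ p' _ h
    by_contra hne
    have h1 := one_le_sd (xI φ) (Alg.qq φ ^ 32) (Alg.qq φ ^ 34) (2 * Alg.qq φ ^ 57)
      (Alg.qq φ ^ 67) (Alg.qq φ ^ 212) p4 (by omega) p1 p2 p3 p p' hne
    rw [← sqrt_sqDist (xI φ) _ _ _ _ _ p5] at h1
    have h2 := dist_point (Alg.lam C₀ φ) (siteN (xI φ) (Alg.qq φ ^ 212) (Alg.qq φ ^ 32)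
      (Alg.qq φ ^ 34) (2 * Alg.qq φ ^ 57) (Alg.qq φ ^ 67) p) (siteN (xI φ) (Alg.qq φ ^ 212)
      (Alg.qq φ ^ 32) (Alg.qq φ ^ 34) (2 * Alg.qq φ ^ 57) (Alg.qq φ ^ 67) p')
    simp only [Function.comp] at h
    rw [h, sub_self, norm_zero] at h2
    have h3 : (1 : ℝ) ≤ Alg.lam C₀ φ := Nat.one_le_cast.2 hlam
    have h4 := mul_pos (lt_of_lt_of_le one_pos h3) (lt_of_lt_of_le one_pos h1)
    rw [← h2] at h4
    exact lt_irrefl _ h4
  · intro p hp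
    rw [nuclei_eq] at hp
    obtain ⟨x, _, rfl⟩ := List.mem_map.1 hp
    exact le_refl 1
  · show 1 ≤ (Alg.cellsOf φ).length
    rw [length_cellsOf]
    exact card_pos φ
  · refine le_trans ?_ (thresholds C₀ hC₀ φ 0).2.2
    have hdpos : 1 ≤ Alg.digits C₀ φ := by
      have e : Alg.digits C₀ φ = 64 * Alg.qq φ ^ 671 * Alg.lam C₀ φ := rfl
      rw [e]
      exact Nat.mul_pos (Nat.mul_pos (by norm_num) (Nat.one_le_pow _ _ hqq)) hlam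
    have hlen : Alg.digits C₀ φ ≤ (Alg.inst C₀ φ).length := by
      have h1 := length_instW (Alg.inst C₀ φ)
      have h2 : (Alg.inst C₀ φ).a.den = 2 ^ Alg.digits C₀ φ := threshold_den _ _ _
      rw [h2, length_bits_two_pow] at h1
      exact (Nat.le_succ _).trans h1
    generalize Alg.digits C₀ φ = d at *
    unfold Instance.length at *
    generalize (instW (Alg.inst C₀ φ)).length = L at *
    have hd0 : (0 : ℝ) < d := Nat.cast_pos.2 hdpos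
    have hdL : (d : ℝ) ≤ L := Nat.cast_le.2 hlen
    have hL1 : (1 : ℝ) ≤ L := Nat.one_le_cast.2 (hdpos.trans hlen)
    exact one_div_le_one_div_of_le hd0 (hdL.trans (le_self_pow₀ hL1 (by omega)))

/-- Block T2. -/
theorem algCorrectStmt (hL : LowerStmt) (hU : UpperStmt) (hB : BddStmt) (hP5 : CellStmt)
    (hP6 : XorInst.IsingStmt) : AlgCorrectStmt := by
  obtain ⟨C₀, hC₀, h⟩ := energy_bounds hL hU hB hP5 hP6
  exact ⟨C₀, hC₀, fun φ => ⟨fun c hc => valid C₀ hC₀ φ c hc,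
    fun hs => (thresholds C₀ hC₀ φ _).1 ((h φ).1 hs),
    fun hs => (thresholds C₀ hC₀ φ _).2.1 ((h φ).2 hs)⟩⟩

end H399

end Vale.Agent.P370
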