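import Vale.Agent.P370.Main
import Vale.Agent.P370.H399.T2
import Vale.Agent.P370.H399.PT
import Vale.Agent.P370.H399.Bdd
import Vale.Agent.P370.H405.LowerAll
import Vale.Agent.P370.H405.Upper
import Vale.Agent.P370.H728.Cell

/-!
Assembly of line N: NP-hardness from the classical block P6 alone.
-/

namespace Vale.Agent.P370.H399

open Vale.Agent.P370

/-- The energy gap problem of protons at integer points is NP-hard, from block P6. -/
theorem npHard_of_ising (hP6 : XorInst.IsingStmt) (c : ℕ) (hc : 1 ≤ c) :
    NPHard (Yes c ∩ {I | I.IntegerProtons}) (No c ∩ {I | I.IntegerProtons}) :=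
  npHard_of algPTStmt (algCorrectStmt H405.lowerStmt H405.upper bddStmt H728.cellStmt hP6) c hc

end Vale.Agent.P370.H399
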