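import Vale.Agent.P370.Interface

/-!
Blocks S1 and S2: from 3-SAT to XOR instances.
-/

namespace Vale.Agent.P370

open Vale.Agent.Lib.PCP (CNF3 Lit)

namespace H399

theorem length_clausePairs (φ : CNF3) (j : ℕ) (c : Lit × Lit × Lit) :
    (clausePairs φ j c).length = 6 := rfl

theorem length_varList (φ : CNF3) : (varList φ).length = 3 * φ.length := by
  unfold varList
  induction φ with
  | nil => rfl
  | cons c φ ih => simp only [List.flatMap_cons, List.length_append, List.length_cons, ih]
                   simp; ring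

theorem mem_varList {φ : CNF3} {c : Lit × Lit × Lit} (hc : c ∈ φ) :
    c.1.1 ∈ varList φ ∧ c.2.1.1 ∈ varList φ ∧ c.2.2.1 ∈ varList φ := by
  unfold varList
  refine ⟨?_, ?_, ?_⟩ <;> exact List.mem_flatMap.2 ⟨c, hc, by simp⟩

theorem idxOf_lt {φ : CNF3} {x : ℕ} (hx : x ∈ varList φ) :
    (varList φ).idxOf x < 3 * φ.length := by
  rw [← length_varList]; exact List.idxOf_lt_length_of_mem hx

/-- Block S1. -/
theorem pairsStmt : PairsStmt := by
  intro φ
  constructor
  · unfold allPairs
    rw [List.length_flatMap]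
    simp only [length_clausePairs]
    simp; ring
  · intro p hp
    unfold allPairs at hp
    obtain ⟨⟨c, j⟩, hcj, hp⟩ := List.mem_flatMap.1 hp
    obtain ⟨hj, hcj'⟩ := List.mem_zipIdx' hcj
    have hc : c ∈ φ := by rw [hcj']; exact List.getElem_mem _
    obtain ⟨h1, h2, h3⟩ := mem_varList hc
    have h1 := idxOf_lt h1
    have h2 := idxOf_lt h2
    have h3 := idxOf_lt h3
    simp only [clausePairs, renLit, List.mem_cons, List.not_mem_nil, or_false] at hp
    rcases hp with rfl | rfl | rfl | rfl | rfl | rfl <;> simp only <;> constructor <;> omega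

/-- The value of a literal with a natural number as variable. -/
def lvN (σ : ℕ → Bool) (p : ℕ × Bool) : ℝ := sg p.2 * sg (σ p.1)

theorem sg_mul (a b : Bool) : sg a * sg b = sg (a == b) := by
  cases a <;> cases b <;> simp [sg]

/-- The value of the pairs of a clause. -/
noncomputable def cv (A B D F Y : Bool) : ℝ :=
  |sg A - sg B| + (|sg B - sg Y| + (|sg A - sg Y| + (|sg (!Y) - sg D| + (|sg D - sg F| +
    (|sg (!Y) - sg F| + 0)))))

theorem cv_le (A B D F Y : Bool) : cv A B D F Y ≤ 8 := by
  cases A <;> cases B <;> cases D <;> cases F <;> cases Y <;> norm_num [cv, sg]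

theorem cv_le' {A B D F : Bool} (h1 : A = F) (h2 : B = F) (h3 : D = F) (Y : Bool) :
    cv A B D F Y ≤ 4 := by
  subst h1 h2 h3
  cases D <;> cases Y <;> norm_num [cv, sg]

theorem cv_eq {A B D F : Bool} (h : A ≠ F ∨ B ≠ F ∨ D ≠ F) :
    cv A B D F (if A = B then !A else F) = 8 := by
  revert h
  cases A <;> cases B <;> cases D <;> cases F <;> norm_num [cv, sg]

theorem sum_clause (φ : CNF3) (j : ℕ) (c : Lit × Lit × Lit) (σ : ℕ → Bool) :
    ((clausePairs φ j c).map fun p => |lvN σ p.1 - lvN σ p.2|).sum =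
      cv (c.1.2 == σ ((varList φ).idxOf c.1.1)) (c.2.1.2 == σ ((varList φ).idxOf c.2.1.1))
        (c.2.2.2 == σ ((varList φ).idxOf c.2.2.1)) (σ (3 * φ.length))
        (σ (3 * φ.length + 1 + j)) := by
  simp only [clausePairs, renLit, List.map_cons, List.map_nil, List.sum_cons, List.sum_nil, lvN,
    sg_mul, cv]
  congr! 6 <;> simp

theorem sum_flatMap {α β : Type} (l : List α) (f : α → List β) (g : β → ℝ) :
    ((l.flatMap f).map g).sum = (l.map fun a => ((f a).map g).sum).sum := by
  induction l with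
  | nil => simp
  | cons a l ih => simp [ih]

theorem sum_getElem {α : Type} (l : List α) (n : ℕ) (h : n = l.length) (g : α → ℝ) :
    ∑ e : Fin n, g (l[(e : ℕ)]'(h ▸ e.2)) = (l.map g).sum := by
  subst h
  rw [← List.sum_ofFn]
  congr 1
  exact List.ofFn_getElem_eq_map _ _

theorem val_eq (φ : CNF3) (s : Fin (xorOf pairsStmt φ).n → Bool) (σ : ℕ → Bool)
    (hσ : ∀ i : Fin (xorOf pairsStmt φ).n, σ i = s i) :
    (xorOf pairsStmt φ).val s = ((allPairs φ).map fun p => |lvN σ p.1 - lvN σ p.2|).sum := by
  refine Eq.trans ?_ (sum_getElem (allPairs φ) (6 * φ.length) (pairsStmt φ).1.symm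
    fun p => |lvN σ p.1 - lvN σ p.2|)
  unfold XorInst.val
  refine Finset.sum_congr rfl fun e _ => ?_
  unfold XorInst.lv lvN
  rw [← hσ, ← hσ]
  rfl

/-- The value as a sum over the clauses. -/
theorem val_eq' (φ : CNF3) (s : Fin (xorOf pairsStmt φ).n → Bool) (σ : ℕ → Bool)
    (hσ : ∀ i : Fin (xorOf pairsStmt φ).n, σ i = s i) :
    (xorOf pairsStmt φ).val s = (φ.zipIdx.map fun p =>
      cv (p.1.1.2 == σ ((varList φ).idxOf p.1.1.1)) (p.1.2.1.2 == σ ((varList φ).idxOf p.1.2.1.1))
        (p.1.2.2.2 == σ ((varList φ).idxOf p.1.2.2.1)) (σ (3 * φ.length))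
        (σ (3 * φ.length + 1 + p.2))).sum := by
  rw [val_eq φ s σ hσ]
  unfold allPairs
  rw [sum_flatMap]
  congr 1
  refine List.map_congr_left fun p _ => ?_
  exact sum_clause φ p.2 p.1 σ

theorem sum_le_of {α : Type} (l : List α) (g : α → ℝ) (B : ℝ) (h : ∀ a ∈ l, g a ≤ B) :
    (l.map g).sum ≤ B * l.length := by
  induction l with
  | nil => simp
  | cons a l ih =>
    have h1 := ih fun b hb => h b (List.mem_cons_of_mem _ hb)
    have h2 := h a List.mem_cons_self
    simp only [List.map_cons, List.sum_cons, List.length_cons]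
    push_cast
    linarith

theorem sum_le_of' {α : Type} (l : List α) (g : α → ℝ) (B d : ℝ) (h : ∀ a ∈ l, g a ≤ B)
    (a : α) (ha : a ∈ l) (h' : g a ≤ B - d) :
    (l.map g).sum ≤ B * l.length - d := by
  induction l with
  | nil => simp at ha
  | cons b l ih =>
    simp only [List.map_cons, List.sum_cons, List.length_cons]
    push_cast
    rcases List.mem_cons.1 ha with rfl | ha
    · have h1 := sum_le_of l g B fun b hb => h b (List.mem_cons_of_mem _ hb)
      linarith
    · have h1 := ih (fun b hb => h b (List.mem_cons_of_mem _ hb)) ha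
      have h2 := h b List.mem_cons_self
      linarith

theorem sum_eq_of {α : Type} (l : List α) (g : α → ℝ) (B : ℝ) (h : ∀ a ∈ l, g a = B) :
    (l.map g).sum = B * l.length := by
  induction l with
  | nil => simp
  | cons a l ih =>
    have h1 := ih fun b hb => h b (List.mem_cons_of_mem _ hb)
    have h2 := h a List.mem_cons_self
    simp only [List.map_cons, List.sum_cons, List.length_cons]
    push_cast
    linarith

theorem mem_of_mem_zipIdx {φ : CNF3} {c : Lit × Lit × Lit} {j : ℕ} (h : (c, j) ∈ φ.zipIdx) :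
    c ∈ φ ∧ j < φ.length := by
  obtain ⟨hj, hcj'⟩ := List.mem_zipIdx' h
  exact ⟨by rw [hcj']; exact List.getElem_mem _, hj⟩

theorem getD_idxOf {φ : CNF3} {x : ℕ} (hx : x ∈ varList φ) :
    (varList φ).getD ((varList φ).idxOf x) 0 = x := by
  rw [List.getD_eq_getElem _ _ (List.idxOf_lt_length_of_mem hx)]
  exact List.getElem_idxOf _

/-- Block S2. -/
theorem satStmt : SatStmt pairsStmt := by
  intro φ
  have hupper : ∀ s, (xorOf pairsStmt φ).val s ≤ 8 * φ.length := by
    intro s
    rw [val_eq' φ s (fun i => if h : i < (xorOf pairsStmt φ).n then s ⟨i, h⟩ else false)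
      (fun i => by simp)]
    refine (sum_le_of _ _ 8 fun a _ => cv_le _ _ _ _ _).trans ?_
    simp
  refine ⟨?_, hupper, ?_⟩
  · rintro ⟨τ, hτ⟩
    -- the assignment
    let σ : ℕ → Bool := fun i =>
      if i < 3 * φ.length then τ ((varList φ).getD i 0)
      else if i = 3 * φ.length then false
      else
        match φ[i - (3 * φ.length + 1)]? with
        | none => false
        | some c => if (c.1.2 == τ c.1.1) = (c.2.1.2 == τ c.2.1.1) then !(c.1.2 == τ c.1.1) else false
    refine ⟨fun i => σ i, ?_⟩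
    rw [val_eq' φ _ σ (fun i => rfl)]
    rw [sum_eq_of _ _ 8]
    · simp
    · rintro ⟨c, j⟩ hcj
      obtain ⟨hc, hj⟩ := mem_of_mem_zipIdx hcj
      obtain ⟨_, hcj'⟩ := List.mem_zipIdx' hcj
      obtain ⟨h1, h2, h3⟩ := mem_varList hc
      have hσ : ∀ x, x ∈ varList φ → σ ((varList φ).idxOf x) = τ x := by
        intro x hx
        simp only [σ]
        rw [if_pos (idxOf_lt hx), getD_idxOf hx]
      have hF : σ (3 * φ.length) = false := by simp [σ]
      have hY : σ (3 * φ.length + 1 + j) =
          if (c.1.2 == τ c.1.1) = (c.2.1.2 == τ c.2.1.1) then !(c.1.2 == τ c.1.1) else false := by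
        simp only [σ]
        rw [if_neg (by omega), if_neg (by omega)]
        rw [show 3 * φ.length + 1 + j - (3 * φ.length + 1) = j by omega,
          List.getElem?_eq_getElem hj, ← hcj']
      simp only [hσ _ h1, hσ _ h2, hσ _ h3, hF, hY]
      apply cv_eq
      have := hτ c hc
      simp only [Lit.eval, Bool.or_eq_true, beq_iff_eq] at this
      rcases this with (h | h) | h
      · left; simp [h]
      · right; left; simp [h]
      · right; right; simp [h]
  · intro hns s
    rw [val_eq' φ s (fun i => if h : i < (xorOf pairsStmt φ).n then s ⟨i, h⟩ else false)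
      (fun i => by simp)]
    set σ : ℕ → Bool := fun i => if h : i < (xorOf pairsStmt φ).n then s ⟨i, h⟩ else false
    have : ∃ c ∈ φ, ¬ ((Lit.eval (fun x => xor (σ ((varList φ).idxOf x)) (σ (3 * φ.length))) c.1 ||
        Lit.eval (fun x => xor (σ ((varList φ).idxOf x)) (σ (3 * φ.length))) c.2.1 ||
        Lit.eval (fun x => xor (σ ((varList φ).idxOf x)) (σ (3 * φ.length))) c.2.2) = true) := by
      by_contra hcon
      push Not at hcon
      exact hns ⟨_, hcon⟩
    obtain ⟨c, hc, hc'⟩ := this
    obtain ⟨j, hj, hcj⟩ := List.getElem_of_mem hc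
    have hmem : (c, j) ∈ φ.zipIdx := by
      rw [List.mem_zipIdx_iff_getElem?]
      rw [List.getElem?_eq_getElem hj, hcj]
    have key := sum_le_of' φ.zipIdx (fun p =>
      cv (p.1.1.2 == σ ((varList φ).idxOf p.1.1.1)) (p.1.2.1.2 == σ ((varList φ).idxOf p.1.2.1.1))
        (p.1.2.2.2 == σ ((varList φ).idxOf p.1.2.2.1)) (σ (3 * φ.length))
        (σ (3 * φ.length + 1 + p.2))) 8 4 (fun a _ => cv_le _ _ _ _ _) (c, j) hmem ?_
    · simpa using key
    · simp only
      refine (cv_le' ?_ ?_ ?_ _).trans (by norm_num)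
      all_goals
        simp only [Lit.eval, Bool.or_eq_true, not_or, beq_iff_eq] at hc'
        obtain ⟨⟨ha, hb⟩, hd⟩ := hc'
      · revert ha
        cases σ ((varList φ).idxOf c.1.1) <;> cases σ (3 * φ.length) <;> cases c.1.2 <;> simp
      · revert hb
        cases σ ((varList φ).idxOf c.2.1.1) <;> cases σ (3 * φ.length) <;> cases c.2.1.2 <;> simp
      · revert hd
        cases σ ((varList φ).idxOf c.2.2.1) <;> cases σ (3 * φ.length) <;> cases c.2.2.2 <;> simp

end H399

end Vale.Agent.P370
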