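import Vale.Agent.P370.Interface

/-!
Block T2, part a: bounds for the ground-state energy, the identity for the holes, and the
comparison of the sum of the inverse distances with its integer approximation.
-/

namespace Vale.Agent.P370

open Vale.Agent.P363.Stmt

namespace H399

/-- The bounds of the ground-state energy of dilute protons. -/
theorem ground_bounds (hL : LowerStmt) (hU : UpperStmt) (hB : BddStmt) :
    ∃ C : ℝ, 0 < C ∧ ∀ (M N : ℕ) (R : Fin M → R3) (μ : ℝ), 1 ≤ N → N ≤ M →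
      C * M ≤ μ → (∀ j k, j ≠ k → μ ^ 3 ≤ ‖R j - R k‖) →
      (∀ S : Finset (Fin M), S.card = N →
        groundEnergy N (fun _ : Fin M => 1) R ≤
          -(N : ℝ) / 2 + selE R S + C * (M : ℝ) ^ 2 / μ ^ 4) ∧
      ∀ c : ℝ, (∀ S : Finset (Fin M), S.card = N → c ≤ selE R S) →
        -(N : ℝ) / 2 + c - C * (M : ℝ) ^ 2 / μ ^ 4 ≤ groundEnergy N (fun _ : Fin M => 1) R := by
  obtain ⟨C1, hC1, hL⟩ := hL
  obtain ⟨C2, hC2, hU⟩ := hU
  refine ⟨max C1 C2, lt_max_of_lt_left hC1, fun M N R μ hN hNM hμ hR => ?_⟩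
  have hM : (0 : ℝ) ≤ M := Nat.cast_nonneg _
  have h1 : C1 * M ≤ μ := le_trans (mul_le_mul_of_nonneg_right (le_max_left _ _) hM) hμ
  have h2 : C2 * M ≤ μ := le_trans (mul_le_mul_of_nonneg_right (le_max_right _ _) hM) hμ
  have e1 : C1 * (M : ℝ) ^ 2 / μ ^ 4 ≤ max C1 C2 * (M : ℝ) ^ 2 / μ ^ 4 := by
    gcongr; exact le_max_left _ _
  have e2 : C2 * (M : ℝ) ^ 2 / μ ^ 4 ≤ max C1 C2 * (M : ℝ) ^ 2 / μ ^ 4 := by
    gcongr; exact le_max_right _ _
  have hL := hL M N R μ hN hNM h1 hR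
  have hU := hU M N R μ hN hNM h2 hR
  constructor
  · intro S hS
    obtain ⟨Ψ, hΨ, hE⟩ := hU S hS
    have : groundEnergy N (fun _ : Fin M => 1) R ≤ energy (coulombPotential (fun _ => 1) R) Ψ :=
      csInf_le (hB M N (fun _ => 1) R) ⟨Ψ, hΨ, rfl⟩
    linarith
  · intro c hc
    refine le_csInf ?_ ?_
    · obtain ⟨S, hS⟩ := Finset.exists_subset_card_eq
        (s := (Finset.univ : Finset (Fin M))) (n := N) (by simpa using hNM)
      obtain ⟨Ψ, hΨ, -⟩ := hU S hS.2
      exact ⟨_, Ψ, hΨ, rfl⟩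
    · rintro e ⟨Ψ, hΨ, rfl⟩
      obtain ⟨S, hS, hE⟩ := hL Ψ hΨ
      have := hc S hS
      linarith

/-! ### Holes -/

section holes

variable {ι : Type} [Fintype ι] [DecidableEq ι]

/-- The double sum. -/
noncomputable def dbl (f : ι → ι → ℝ) (A B : Finset ι) : ℝ := ∑ i ∈ A, ∑ j ∈ B, f i j

theorem dbl_erase (f : ι → ι → ℝ) (h0 : ∀ i, f i i = 0) (A : Finset ι) (B : Finset ι) :
    ∑ i ∈ A, ∑ j ∈ B.erase i, f i j = dbl f A B := by
  unfold dbl
  refine Finset.sum_congr rfl fun i _ => ?_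
  by_cases h : i ∈ B
  · rw [← Finset.add_sum_erase _ _ h, h0, zero_add]
  · rw [Finset.erase_eq_of_notMem h]

theorem dbl_comm (f : ι → ι → ℝ) (hs : ∀ i j, f i j = f j i) (A B : Finset ι) :
    dbl f A B = dbl f B A := by
  unfold dbl
  rw [Finset.sum_comm]
  exact Finset.sum_congr rfl fun i _ => Finset.sum_congr rfl fun j _ => hs _ _

theorem dbl_split_right (f : ι → ι → ℝ) (A S : Finset ι) :
    dbl f A Finset.univ = dbl f A S + dbl f A Sᶜ := by
  unfold dbl
  rw [← Finset.sum_add_distrib]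
  exact Finset.sum_congr rfl fun i _ => (Finset.sum_add_sum_compl S _).symm

theorem dbl_split_left (f : ι → ι → ℝ) (A S : Finset ι) :
    dbl f Finset.univ A = dbl f S A + dbl f Sᶜ A := by
  unfold dbl
  exact (Finset.sum_add_sum_compl S _).symm

theorem holes_identity (f : ι → ι → ℝ) (hs : ∀ i j, f i j = f j i) (S : Finset ι) :
    1 / 2 * dbl f S S - dbl f S Finset.univ =
      1 / 2 * dbl f Sᶜ Sᶜ - 1 / 2 * dbl f Finset.univ Finset.univ := by
  have h1 := dbl_split_right f S S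
  have h2 := dbl_split_right f Finset.univ S
  have h3 := dbl_split_left f S S
  have h4 := dbl_split_left f Sᶜ S
  have h5 := dbl_comm f hs Sᶜ S
  rw [h2, h3, h4, h1, h5]
  ring

end holes

/-- The energy of a choice of occupied protons in terms of the holes. -/
theorem selE_eq {M : ℕ} {ι : Type} [Fintype ι] [DecidableEq ι] (e : Fin M ≃ ι) (d : ι → ι → ℝ)
    (hd : ∀ p p', d p p' = d p' p) (h0 : ∀ p, d p p = 0) (lam : ℝ) (R : Fin M → R3)
    (hR : ∀ j k, ‖R j - R k‖ = lam * d (e j) (e k)) (S : Finset (Fin M)) :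
    selE R S = 1 / lam * (coulE d (Sᶜ.map e.toEmbedding) - coulE d Finset.univ) := by
  set g : ι → ι → ℝ := fun p p' => 1 / d p p' with hg
  have hg0 : ∀ p, g p p = 0 := fun p => by simp [hg, h0]
  have hgs : ∀ p p', g p p' = g p' p := fun p p' => by simp only [hg]; rw [hd]
  set f : Fin M → Fin M → ℝ := fun j k => 1 / ‖R j - R k‖ with hf
  have hf0 : ∀ j, f j j = 0 := fun j => by simp [hf]
  have hfs : ∀ j k, f j k = f k j := fun j k => by simp only [hf]; rw [norm_sub_rev]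
  have hfg : ∀ j k, f j k = 1 / lam * g (e j) (e k) := fun j k => by
    simp only [hf, hg]; rw [hR, ← one_div_mul_one_div]
  have h1 : selE R S = 1 / 2 * dbl f S S - dbl f S Finset.univ := by
    unfold selE
    rw [dbl_erase f hf0 S S, dbl_erase f hf0 S Finset.univ]
  rw [h1, holes_identity f hfs S]
  unfold coulE
  rw [dbl_erase g hg0, dbl_erase g hg0]
  have h2 : ∀ A B : Finset (Fin M), dbl f A B = 1 / lam * dbl g (A.map e.toEmbedding)
      (B.map e.toEmbedding) := by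
    intro A B
    unfold dbl
    rw [Finset.sum_map, Finset.mul_sum]
    refine Finset.sum_congr rfl fun i _ => ?_
    rw [Finset.sum_map, Finset.mul_sum]
    exact Finset.sum_congr rfl fun j _ => hfg i j
  rw [h2, h2]
  rw [Finset.map_univ_equiv]
  ring

/-! ### Integer square roots -/

theorem isqrt_bounds (P s : ℕ) :
    ((Nat.sqrt (P ^ 2 / s) : ℕ) : ℝ) ≤ P * (1 / Real.sqrt s) ∧
      P * (1 / Real.sqrt s) ≤ ((Nat.sqrt (P ^ 2 / s) : ℕ) : ℝ) + 1 := by
  rcases Nat.eq_zero_or_pos s with rfl | hs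
  · simp
  · have hs' : (0 : ℝ) < s := by exact_mod_cast hs
    have hsq : 0 < Real.sqrt s := Real.sqrt_pos.2 hs'
    set v := P ^ 2 / s with hv
    have h1 : Nat.sqrt v * Nat.sqrt v ≤ v := Nat.sqrt_le v
    have h2 : v < (Nat.sqrt v + 1) * (Nat.sqrt v + 1) := Nat.lt_succ_sqrt v
    have h3 : v * s ≤ P ^ 2 := Nat.div_mul_le_self _ _
    have h4 : P ^ 2 < (v + 1) * s := by
      have := Nat.lt_div_mul_add (a := P ^ 2) hs
      rw [← hv] at this
      linarith [this]
    have hP : (P : ℝ) * (1 / Real.sqrt s) = P / Real.sqrt s := by ring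
    rw [hP]
    constructor
    · rw [le_div_iff₀ hsq]
      refine le_of_sq_le_sq ?_ (Nat.cast_nonneg _)
      rw [mul_pow, Real.sq_sqrt hs'.le]
      have : (Nat.sqrt v * Nat.sqrt v) * s ≤ P ^ 2 := (Nat.mul_le_mul_right _ h1).trans h3
      have h5 : (((Nat.sqrt v * Nat.sqrt v) * s : ℕ) : ℝ) ≤ ((P ^ 2 : ℕ) : ℝ) := by
        exact_mod_cast this
      push_cast at h5
      nlinarith
    · rw [div_le_iff₀ hsq]
      refine le_of_sq_le_sq ?_ (by positivity)
      rw [mul_pow, Real.sq_sqrt hs'.le]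
      have : P ^ 2 ≤ ((Nat.sqrt v + 1) * (Nat.sqrt v + 1)) * s :=
        h4.le.trans (Nat.mul_le_mul_right _ h2)
      have h5 : ((P ^ 2 : ℕ) : ℝ) ≤ ((((Nat.sqrt v + 1) * (Nat.sqrt v + 1)) * s : ℕ) : ℝ) := by
        exact_mod_cast this
      push_cast at h5
      nlinarith

end H399

end Vale.Agent.P370
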