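import Vale.Agent.P370.Alg
import Vale.Agent.P370.H399.Sat

/-!
Block T2, part b: the classical energies of the reduction.
-/

namespace Vale.Agent.P370

open Vale.Agent.Lib.PCP (CNF3 Lit)

namespace H399

/-- The XOR instance of a formula. -/
noncomputable abbrev xI (φ : CNF3) : XorInst := xorOf pairsStmt φ

theorem xI_n (φ : CNF3) : (xI φ).n = 4 * φ.length + 1 := rfl
theorem xI_m (φ : CNF3) : (xI φ).m = 6 * φ.length := rfl

theorem clause_ref (φ : CNF3) (j : ℕ) (c : Lit × Lit × Lit) :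
    ((clausePairs φ j c).map fun p => lvN (fun _ => true) p.1 - lvN (fun _ => true) p.2).sum =
      2 * sg c.1.2 - 6 := by
  simp only [clausePairs, renLit, List.map_cons, List.map_nil, List.sum_cons, List.sum_nil, lvN]
  rcases c with ⟨⟨x1, b1⟩, ⟨x2, b2⟩, ⟨x3, b3⟩⟩
  cases b1 <;> cases b2 <;> cases b3 <;> norm_num [sg]

theorem sum_zipIdx_fst (φ : CNF3) (f : Lit × Lit × Lit → ℝ) :
    ((φ.zipIdx).map fun p => f p.1).sum = (φ.map f).sum := by
  have : (φ.zipIdx).map (fun p => f p.1) = φ.map f := by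
    rw [show (fun p : (Lit × Lit × Lit) × ℕ => f p.1) = f ∘ Prod.fst from rfl, ← List.map_map,
      List.zipIdx_map_fst]
  rw [this]

theorem sum_posFirst (φ : CNF3) :
    (φ.map fun c => 2 * sg c.1.2 - 6).sum = 4 * (Alg.posFirst φ : ℝ) - 8 * φ.length := by
  unfold Alg.posFirst
  induction φ with
  | nil => simp
  | cons c φ ih =>
    rw [List.map_cons, List.sum_cons, ih, List.filter_cons, List.length_cons]
    by_cases h : c.1.2
    · simp only [h, if_true, List.length_cons, sg]
      push_cast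
      ring
    · simp only [h, if_false, sg, Bool.false_eq_true]
      push_cast
      ring

/-- The sum of the couplings at the reference configuration. -/
theorem ref_sum (φ : CNF3) :
    ∑ e, sg true * (XorInst.lv ((xI φ).l e) (fun _ => true) -
      XorInst.lv ((xI φ).r e) (fun _ => true)) = 4 * (Alg.posFirst φ : ℝ) - 8 * φ.length := by
  have h1 := sum_getElem (allPairs φ) (6 * φ.length) (pairsStmt φ).1.symm
    fun p => lvN (fun _ => true) p.1 - lvN (fun _ => true) p.2
  have h2 : ∑ e, sg true * (XorInst.lv ((xI φ).l e) (fun _ => true) -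
      XorInst.lv ((xI φ).r e) (fun _ => true)) =
      ((allPairs φ).map fun p => lvN (fun _ => true) p.1 - lvN (fun _ => true) p.2).sum := by
    rw [← h1]
    refine Finset.sum_congr rfl fun e _ => ?_
    rw [show sg true = 1 from rfl, one_mul]
    rfl
  rw [h2]
  unfold allPairs
  rw [sum_flatMap]
  simp only [clause_ref]
  rw [sum_zipIdx_fst φ fun c => 2 * sg c.1.2 - 6, sum_posFirst]

theorem sg_abs (x : ℝ) : ∃ b : Bool, sg b * x = -|x| := by
  rcases le_total 0 x with h | h
  · exact ⟨false, by rw [abs_of_nonneg h]; simp [sg]⟩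
  · exact ⟨true, by rw [abs_of_nonpos h]; simp [sg]⟩

theorem sg_abs_ge (b : Bool) (x : ℝ) : -|x| ≤ sg b * x := by
  cases b
  · simp only [sg, Bool.false_eq_true, if_false]
    have := le_abs_self x
    linarith
  · simp only [sg, if_true, one_mul]
    exact neg_abs_le x

/-- The Ising part of the reduction. -/
theorem ising_bounds (hP6 : XorInst.IsingStmt) (φ : CNF3) (ell D Lam W X : ℕ)
    (hell : ell = Alg.qq φ ^ 32) (hD : D = Alg.qq φ ^ 34) (hLam : Lam = 2 * Alg.qq φ ^ 57)
    (hW : W = Alg.qq φ ^ 67) (hX : X = ((xI φ).m + 2) * Lam) :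
    (φ.Sat → ∃ t : (xI φ).Cell X → Bool, (xI φ).ising ell D Lam W t ≤
      (xI φ).ising ell D Lam W (X := X) ((xI φ).ord (fun _ => true) (fun _ => true)) +
        (W : ℝ) / (D : ℝ) ^ 3 * (-4 * Alg.posFirst φ + 1 / 2)) ∧
    (¬ φ.Sat → ∀ t : (xI φ).Cell X → Bool,
      (xI φ).ising ell D Lam W (X := X) ((xI φ).ord (fun _ => true) (fun _ => true)) +
        (W : ℝ) / (D : ℝ) ^ 3 * (-4 * Alg.posFirst φ + 7 / 2) ≤
          (xI φ).ising ell D Lam W t) := by
  have hq : 1000 * ((xI φ).n + (xI φ).m + 1) ≤ Alg.qq φ := by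
    rw [xI_n, xI_m]; unfold Alg.qq; omega
  obtain ⟨G, hG'⟩ := hP6 (xI φ) (Alg.qq φ) hq ell D Lam W X hell hD hLam hW hX
  have hG := hG'.1
  have hmin := hG'.2
  clear hG' hq hell hD hLam hW hX
  have hJ0 : (0 : ℝ) ≤ (W : ℝ) / (D : ℝ) ^ 3 :=
    div_nonneg (Nat.cast_nonneg _) (pow_nonneg (Nat.cast_nonneg _) _)
  revert hG hmin hJ0
  generalize (W : ℝ) / (D : ℝ) ^ 3 = J
  intro hG hmin hJ0
  obtain ⟨hS1, hS2, hS3⟩ := satStmt φ
  have href := hG (fun _ => true) (fun _ => true)
  rw [ref_sum, abs_le] at href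
  constructor
  · intro hsat
    obtain ⟨s, hs⟩ := hS1 hsat
    choose v hv using fun e => sg_abs (XorInst.lv ((xI φ).l e) s - XorInst.lv ((xI φ).r e) s)
    refine ⟨(xI φ).ord s v, ?_⟩
    have h1 := hG s v
    rw [Finset.sum_congr rfl fun e _ => hv e, Finset.sum_neg_distrib, abs_le] at h1
    have h2 : J * (8 * (φ.length : ℝ)) ≤
        J * ∑ e, |XorInst.lv ((xI φ).l e) s - XorInst.lv ((xI φ).r e) s| :=
      mul_le_mul_of_nonneg_left hs hJ0
    nlinarith [h1.2, href.1]
  · intro hns t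
    obtain ⟨s, v, hsv⟩ := hmin t
    have h1 := hG s v
    rw [abs_le] at h1
    have h2 : -(8 * (φ.length : ℝ) - 4) ≤
        ∑ e, sg (v e) * (XorInst.lv ((xI φ).l e) s - XorInst.lv ((xI φ).r e) s) := by
      have h3 := hS3 hns s
      unfold XorInst.val at h3
      refine le_trans (neg_le_neg h3) ?_
      rw [← Finset.sum_neg_distrib]
      exact Finset.sum_le_sum fun e _ => sg_abs_ge _ _
    have h3 := mul_le_mul_of_nonneg_left h2 hJ0
    nlinarith [h1.1, href.2, hsv]

end H399

end Vale.Agent.P370
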