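import Vale.Agent.P370.H399.T2a
import Vale.Agent.P370.H399.T2b

/-!
Block T2, part c: the cells and the sites of a formula.
-/

namespace Vale.Agent.P370

open Vale.Agent.Lib.PCP (CNF3 Lit)
open Vale.Agent.P363.Stmt

namespace H399

section geom

variable (I : XorInst) (ell D Lam W : ℕ) {X : ℕ}

theorem dst_comm (c c' : I.Cell X) : I.dst ell D Lam c c' = I.dst ell D Lam c' c := by
  unfold XorInst.dst
  congr 1
  ring

theorem dst_self (c : I.Cell X) : I.dst ell D Lam c c = 0 := by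
  unfold XorInst.dst
  simp

theorem one_le_sq_of_nat {x y : ℕ} (h : x ≠ y) : (1 : ℝ) ≤ ((x : ℝ) - y) ^ 2 := by
  rcases lt_or_gt_of_ne h with h | h
  · have : (x : ℝ) + 1 ≤ y := by exact_mod_cast h
    nlinarith
  · have : (y : ℝ) + 1 ≤ x := by exact_mod_cast h
    nlinarith

theorem one_le_dst (hell : 1 ≤ ell) (hD : 1 ≤ D) (hLam : 1 ≤ Lam) (c c' : I.Cell X)
    (h : c ≠ c') : 1 ≤ I.dst ell D Lam c c' := by
  have hell' : (1 : ℝ) ≤ ell := by exact_mod_cast hell
  have hD' : (1 : ℝ) ≤ D := by exact_mod_cast hD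
  have hLam' : (1 : ℝ) ≤ Lam := by exact_mod_cast hLam
  unfold XorInst.dst
  rw [Real.one_le_sqrt]
  rcases c with ⟨i, x⟩ | e <;> rcases c' with ⟨i', x'⟩ | e'
  · simp only [XorInst.cx, XorInst.cy]
    by_cases hx : x = x'
    · subst hx
      have hi : (i : ℕ) ≠ i' := fun hi => h (by rw [Fin.ext hi])
      have h1 := one_le_sq_of_nat hi
      have h2 : ((D : ℝ) + ell * (i : ℕ) - (D + ell * (i' : ℕ))) ^ 2 =
          ell ^ 2 * (((i : ℕ) : ℝ) - (i' : ℕ)) ^ 2 := by ring
      rw [h2]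
      nlinarith [sq_nonneg ((((x : ℕ) : ℝ) - (x : ℕ)))]
    · have hx' : (x : ℕ) ≠ x' := fun hi => hx (Fin.ext hi)
      have h1 := one_le_sq_of_nat hx'
      nlinarith [sq_nonneg ((D : ℝ) + ell * (i : ℕ) - (D + ell * (i' : ℕ)))]
  · simp only [XorInst.cx, XorInst.cy]
    have h1 : (1 : ℝ) ≤ D + ell * (i : ℕ) - 0 := by
      have : (0 : ℝ) ≤ ell * ((i : ℕ) : ℝ) := by positivity
      linarith
    nlinarith [sq_nonneg (((x : ℕ) : ℝ) - ((((e' : ℕ) : ℝ) + 1) * Lam + 1 / 2))]
  · simp only [XorInst.cx, XorInst.cy]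
    have h1 : (1 : ℝ) ≤ D + ell * (i' : ℕ) - 0 := by
      have : (0 : ℝ) ≤ ell * ((i' : ℕ) : ℝ) := by positivity
      linarith
    nlinarith [sq_nonneg (((((e : ℕ) : ℝ) + 1) * Lam + 1 / 2) - ((x' : ℕ) : ℝ))]
  · simp only [XorInst.cx, XorInst.cy]
    have he : (e : ℕ) ≠ e' := fun he => h (by rw [Fin.ext he])
    have h1 := one_le_sq_of_nat he
    have h2 : ((((e : ℕ) : ℝ) + 1) * Lam + 1 / 2 - ((((e' : ℕ) : ℝ) + 1) * Lam + 1 / 2)) ^ 2 =
        Lam ^ 2 * (((e : ℕ) : ℝ) - (e' : ℕ)) ^ 2 := by ring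
    rw [h2]
    nlinarith

theorem contacts_le (i : Fin I.n) (x : ℕ) : I.contacts Lam i x ≤ 2 * I.m := by
  unfold XorInst.contacts
  refine (Finset.sum_le_card_nsmul Finset.univ _ 2 fun e _ => ?_).trans ?_
  · split_ifs <;> omega
  · simp; omega

theorem hgt_ge (hW : 1 ≤ W) (c : I.Cell X) : 1 ≤ I.hgt Lam W c := by
  rcases c with ⟨i, x⟩ | e
  · simp only [XorInst.hgt]; omega
  · exact hW

theorem hgt_le (hW : 20 + 2 * I.m ≤ W) (c : I.Cell X) : I.hgt Lam W c ≤ W := by
  rcases c with ⟨i, x⟩ | e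
  · simp only [XorInst.hgt]
    have := contacts_le I Lam i x
    omega
  · exact le_refl _

/-! ### The lists of cells and sites -/

/-- The list of the cells. -/
def cellL (X : ℕ) : List (I.Cell X) :=
  ((List.finRange I.n).flatMap fun i => (List.finRange X).map fun x => Sum.inl (i, x)) ++
    (List.finRange I.m).map Sum.inr

theorem mem_cellL (c : I.Cell X) : c ∈ cellL I X := by
  unfold cellL
  rcases c with ⟨i, x⟩ | e
  · exact List.mem_append_left _ (List.mem_flatMap.2 ⟨i, List.mem_finRange i,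
      List.mem_map.2 ⟨x, List.mem_finRange x, rfl⟩⟩)
  · exact List.mem_append_right _ (List.mem_map.2 ⟨e, List.mem_finRange e, rfl⟩)

theorem length_cellL : (cellL I X).length = Fintype.card (I.Cell X) := by
  unfold cellL
  simp [List.length_flatMap, Fintype.card_sum, Fintype.card_prod]

theorem nodup_cellL : (cellL I X).Nodup := by
  classical
  have h1 : (cellL I X).toFinset = Finset.univ := by
    ext c; simp [mem_cellL]
  rw [← Multiset.coe_nodup, ← Multiset.toFinset_card_eq_card_iff_nodup]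
  change (cellL I X).toFinset.card = (cellL I X).length
  rw [h1, length_cellL]
  rfl

/-- The list of the sites. -/
def siteL (X : ℕ) : List (I.Cell X × Bool) := (cellL I X).flatMap fun c => [(c, true), (c, false)]

theorem mem_siteL (p : I.Cell X × Bool) : p ∈ siteL I X := by
  unfold siteL
  rcases p with ⟨c, b⟩
  refine List.mem_flatMap.2 ⟨c, mem_cellL I c, ?_⟩
  cases b <;> simp

theorem length_siteL : (siteL I X).length = Fintype.card (I.Cell X × Bool) := by
  unfold siteL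
  rw [List.length_flatMap]
  simp only [List.length_cons, List.length_nil, List.map_const', List.sum_replicate, smul_eq_mul]
  rw [length_cellL, Fintype.card_prod, Fintype.card_bool]

theorem nodup_siteL : (siteL I X).Nodup := by
  classical
  have h1 : (siteL I X).toFinset = Finset.univ := by
    ext c; simp [mem_siteL]
  rw [← Multiset.coe_nodup, ← Multiset.toFinset_card_eq_card_iff_nodup]
  change (siteL I X).toFinset.card = (siteL I X).length
  rw [h1, length_siteL]
  rfl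

/-- The cell as in the algorithm. -/
def cellN (a ell D Lam W : ℕ) {X : ℕ} : I.Cell X → Alg.CellN
  | .inl (i, x) => (((2 * a * x, 2 * a * (D + ell * i)), 20 + I.contacts Lam i x),
      decide ((x : ℕ) % 2 = 0))
  | .inr e => (((a * (2 * ((e + 1) * Lam) + 1), 0), W), true)

/-- The site as in the algorithm. -/
def siteN (a ell D Lam W : ℕ) {X : ℕ} (p : I.Cell X × Bool) : Alg.SiteN :=
  let c := cellN I a ell D Lam W p.1
  ((c.1.1.1, c.1.1.2, if p.2 then W + c.1.2 else W - c.1.2), p.2 == c.2)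

theorem twoSites_cellN (a : ℕ) (c : I.Cell X) :
    Alg.twoSites W (cellN I a ell D Lam W c) =
      [siteN I a ell D Lam W (c, true), siteN I a ell D Lam W (c, false)] := by
  unfold Alg.twoSites siteN
  simp

theorem flatMap_twoSites (a : ℕ) :
    ((cellL I X).map (cellN I a ell D Lam W)).flatMap (Alg.twoSites W) =
      (siteL I X).map (siteN I a ell D Lam W) := by
  unfold siteL
  rw [List.flatMap_map, List.map_flatMap]
  congr 1
  funext c
  exact twoSites_cellN I ell D Lam W a c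

theorem cellN_hgt (a : ℕ) (c : I.Cell X) : (cellN I a ell D Lam W c).1.2 = I.hgt Lam W c := by
  rcases c with ⟨i, x⟩ | e <;> rfl

theorem cellN_x (a : ℕ) (c : I.Cell X) :
    ((cellN I a ell D Lam W c).1.1.1 : ℝ) = (2 * a : ℝ) * I.cx Lam c := by
  rcases c with ⟨i, x⟩ | e
  · simp only [cellN, XorInst.cx]; push_cast; ring
  · simp only [cellN, XorInst.cx]; push_cast; ring

theorem cellN_y (a : ℕ) (c : I.Cell X) :
    ((cellN I a ell D Lam W c).1.1.2 : ℝ) = (2 * a : ℝ) * I.cy ell D c := by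
  rcases c with ⟨i, x⟩ | e
  · simp only [cellN, XorInst.cy]; push_cast; ring
  · simp only [cellN, XorInst.cy]; push_cast; ring

theorem cellN_occ (a : ℕ) (c : I.Cell X) :
    (cellN I a ell D Lam W c).2 = I.ord (fun _ => true) (fun _ => true) c := by
  rcases c with ⟨i, x⟩ | e
  · simp only [cellN, XorInst.ord]
    by_cases h : (x : ℕ) % 2 = 0 <;> simp [h]
  · rfl

theorem siteN_z (a : ℕ) (hW : 20 + 2 * I.m ≤ W) (p : I.Cell X × Bool) :
    ((siteN I a ell D Lam W p).1.2.2 : ℝ) = W + sg p.2 * I.hgt Lam W p.1 := by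
  rcases p with ⟨c, b⟩
  have h := hgt_le I Lam W hW c
  cases b
  · simp only [siteN, cellN_hgt, sg, Bool.false_eq_true, if_false]
    rw [Nat.cast_sub h]; ring
  · simp only [siteN, cellN_hgt, sg, if_true]
    push_cast; ring

theorem cast_sqd (x y : ℕ) : ((Alg.sqd x y : ℕ) : ℝ) = ((x : ℝ) - y) ^ 2 := by
  unfold Alg.sqd
  rcases le_total x y with h | h
  · rw [Nat.sub_eq_zero_of_le h]
    push_cast [h]
    ring
  · rw [Nat.sub_eq_zero_of_le h]
    push_cast [h]
    ring

theorem cast_sqDist (p p' : ℕ × ℕ × ℕ) : ((Alg.sqDist p p' : ℕ) : ℝ) =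
    ((p.1 : ℝ) - p'.1) ^ 2 + ((p.2.1 : ℝ) - p'.2.1) ^ 2 + ((p.2.2 : ℝ) - p'.2.2) ^ 2 := by
  unfold Alg.sqDist
  push_cast [cast_sqd]
  ring

/-- The distance of the sites. -/
noncomputable def sd (a : ℕ) (p p' : I.Cell X × Bool) : ℝ :=
  siteDist (2 * a : ℝ) (I.dst ell D Lam) (fun c => (I.hgt Lam W c : ℝ)) p p'

theorem sqrt_sqDist (a : ℕ) (hW : 20 + 2 * I.m ≤ W) (p p' : I.Cell X × Bool) :
    Real.sqrt (Alg.sqDist (siteN I a ell D Lam W p).1 (siteN I a ell D Lam W p').1 : ℕ) =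
      sd I ell D Lam W a p p' := by
  unfold sd siteDist
  rw [cast_sqDist, siteN_z I ell D Lam W a hW, siteN_z I ell D Lam W a hW]
  congr 1
  have h1 : ((siteN I a ell D Lam W p).1.1 : ℝ) = (2 * a : ℝ) * I.cx Lam p.1 :=
    cellN_x I ell D Lam W a p.1
  have h2 : ((siteN I a ell D Lam W p').1.1 : ℝ) = (2 * a : ℝ) * I.cx Lam p'.1 :=
    cellN_x I ell D Lam W a p'.1
  have h3 : ((siteN I a ell D Lam W p).1.2.1 : ℝ) = (2 * a : ℝ) * I.cy ell D p.1 :=
    cellN_y I ell D Lam W a p.1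
  have h4 : ((siteN I a ell D Lam W p').1.2.1 : ℝ) = (2 * a : ℝ) * I.cy ell D p'.1 :=
    cellN_y I ell D Lam W a p'.1
  rw [h1, h2, h3, h4]
  have h5 : (I.dst ell D Lam p.1 p'.1) ^ 2 = (I.cx Lam p.1 - I.cx Lam p'.1) ^ 2 +
      (I.cy ell D p.1 - I.cy ell D p'.1) ^ 2 := by
    unfold XorInst.dst
    rw [Real.sq_sqrt (by positivity)]
  rw [mul_pow, h5]
  ring

theorem sd_comm (a : ℕ) (p p' : I.Cell X × Bool) :
    sd I ell D Lam W a p p' = sd I ell D Lam W a p' p := by
  unfold sd siteDist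
  rw [dst_comm]
  congr 1
  ring

theorem sd_self (a : ℕ) (p : I.Cell X × Bool) : sd I ell D Lam W a p p = 0 := by
  unfold sd siteDist
  rw [dst_self]
  simp

/-- Different sites have distance at least one. -/
theorem one_le_sd (a : ℕ) (ha : 1 ≤ a) (hW : 1 ≤ W) (hell : 1 ≤ ell) (hD : 1 ≤ D)
    (hLam : 1 ≤ Lam) (p p' : I.Cell X × Bool) (h : p ≠ p') : 1 ≤ sd I ell D Lam W a p p' := by
  have ha' : (1 : ℝ) ≤ a := by exact_mod_cast ha
  unfold sd siteDist
  rw [Real.one_le_sqrt]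
  rcases p with ⟨c, b⟩
  rcases p' with ⟨c', b'⟩
  by_cases hc : c = c'
  · subst hc
    have hb : b ≠ b' := fun hb => h (by rw [hb])
    have hh : (1 : ℝ) ≤ I.hgt Lam W c := by exact_mod_cast hgt_ge I Lam W hW c
    have : (sg b * (I.hgt Lam W c : ℝ) - sg b' * I.hgt Lam W c) ^ 2 =
        4 * (I.hgt Lam W c : ℝ) ^ 2 := by
      revert hb
      cases b <;> cases b' <;> simp [sg] <;> ring
    simp only at this ⊢
    rw [this]
    nlinarith [sq_nonneg (2 * (a : ℝ) * I.dst ell D Lam c c)]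
  · have h1 := one_le_dst I ell D Lam hell hD hLam c c' hc
    simp only
    have h2 : (1 : ℝ) ≤ 2 * a * I.dst ell D Lam c c' := by nlinarith
    nlinarith [sq_nonneg (sg b * (I.hgt Lam W c : ℝ) - sg b' * I.hgt Lam W c')]

end geom

end H399

end Vale.Agent.P370
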