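import Vale.Agent.P370.H399.T2c
import Vale.Agent.P370.H399.PT

/-!
Block T2, part d: the ground-state energy of the instance in terms of its sites.
-/

namespace Vale.Agent.P370

open Vale.Agent.Lib.PCP (CNF3 Lit)
open Vale.Agent.P363.Stmt

namespace H399

/-! ### The lists of the algorithm -/

theorem sum_zipIdx_fin {α : Type} (l : List α) (n : ℕ) (h : n = l.length) (F : α × ℕ → ℕ) :
    ∑ e : Fin n, F (l[(e : ℕ)]'(h ▸ e.2), (e : ℕ)) = (l.zipIdx.map F).sum := by
  subst h
  rw [← List.sum_ofFn]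
  congr 1
  refine List.ext_getElem (by simp) fun i h1 h2 => ?_
  simp

theorem contactsN_eq (φ : CNF3) (Lam : ℕ) (i : Fin (xI φ).n) (x : ℕ) :
    Alg.contactsN (allPairs φ) Lam i x = (xI φ).contacts Lam i x := by
  unfold Alg.contactsN XorInst.contacts
  rw [← sum_zipIdx_fin (allPairs φ) (6 * φ.length) (pairsStmt φ).1.symm]
  refine Finset.sum_congr rfl fun e _ => ?_
  have h1 : ((xI φ).l e).1 = i ↔ ((allPairs φ)[(e : ℕ)]'((pairsStmt φ).1.symm ▸ e.2)).1.1 = i := by
    rw [Fin.ext_iff]; rfl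
  have h2 : ((xI φ).r e).1 = i ↔ ((allPairs φ)[(e : ℕ)]'((pairsStmt φ).1.symm ▸ e.2)).2.1 = i := by
    rw [Fin.ext_iff]; rfl
  rw [if_congr (and_congr_left' h1) rfl rfl, if_congr (and_congr_left' h2) rfl rfl]
  rfl

theorem flatMap_range {β : Type} (n : ℕ) (F : ℕ → List β) :
    (List.range n).flatMap F = (List.finRange n).flatMap fun i : Fin n => F (i : ℕ) := by
  rw [← List.map_coe_finRange_eq_range, List.flatMap_map]

theorem map_range {β : Type} (n : ℕ) (F : ℕ → β) :
    (List.range n).map F = (List.finRange n).map fun i : Fin n => F (i : ℕ) := by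
  rw [← List.map_coe_finRange_eq_range, List.map_map]
  rfl

theorem cellsN_eq (φ : CNF3) (a ell D Lam W X : ℕ) :
    Alg.cellsN (allPairs φ) (4 * φ.length + 1) (6 * φ.length) a ell D Lam W X =
      (cellL (xI φ) X).map (cellN (xI φ) a ell D Lam W) := by
  unfold Alg.cellsN cellL
  rw [List.map_append, List.map_flatMap, List.map_map, flatMap_range, map_range]
  congr 1
  refine List.flatMap_congr fun i _ => ?_
  rw [map_range, List.map_map]
  refine List.map_congr_left fun x _ => ?_
  simp only [Function.comp, cellN]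
  exact congrArg (fun z : ℕ => (((2 * a * (x : ℕ), 2 * a * (D + ell * (i : ℕ))), 20 + z),
    decide ((x : ℕ) % 2 = 0))) (contactsN_eq φ Lam i x)

theorem sitesN_eq (φ : CNF3) (a ell D Lam W X : ℕ) :
    (Alg.cellsN (allPairs φ) (4 * φ.length + 1) (6 * φ.length) a ell D Lam W X).flatMap
      (Alg.twoSites W) = (siteL (xI φ) X).map (siteN (xI φ) a ell D Lam W) := by
  rw [cellsN_eq, flatMap_twoSites]

/-! ### The double sum -/

theorem list_sum_eq {ι : Type} [Fintype ι] (L : List ι) (hn : L.Nodup)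
    (hm : ∀ p, p ∈ L) (f : ι → ℕ) : (L.map f).sum = ∑ p, f p := by
  classical
  rw [← List.sum_toFinset f hn]
  congr 1
  ext p; simp [hm p]

theorem pairSum_bounds (I : XorInst) (a ell D Lam W X P : ℕ) (hW : 20 + 2 * I.m ≤ W) :
    let T := sites (I.ord (X := X) (fun _ => true) (fun _ => true))
    ((Alg.pairSum P ((siteL I X).map (siteN I a ell D Lam W)) : ℕ) : ℝ) ≤
      2 * P * (coulE (sd (X := X) I ell D Lam W a) Finset.univ - coulE (sd (X := X) I ell D Lam W a) T) ∧
    2 * P * (coulE (sd (X := X) I ell D Lam W a) Finset.univ - coulE (sd (X := X) I ell D Lam W a) T) ≤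
      ((Alg.pairSum P ((siteL I X).map (siteN I a ell D Lam W)) : ℕ) : ℝ) +
        (Fintype.card (I.Cell X × Bool) : ℝ) ^ 2 := by
  classical
  intro T
  set g : (I.Cell X × Bool) → (I.Cell X × Bool) → ℝ := fun p p' => 1 / sd (X := X) I ell D Lam W a p p' with hg
  have hg0 : ∀ p, g p p = 0 := fun p => by simp [hg, sd_self]
  have hgn : ∀ p p', 0 ≤ g p p' := fun p p' => by
    simp only [hg]
    exact one_div_nonneg.2 (Real.sqrt_nonneg _)
  have h1 : 2 * P * (coulE (sd (X := X) I ell D Lam W a) Finset.univ - coulE (sd (X := X) I ell D Lam W a) T) =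
      ∑ p, ∑ p', if p ∈ T ∧ p' ∈ T then 0 else P * g p p' := by
    unfold coulE
    rw [dbl_erase g hg0, dbl_erase g hg0]
    have h2 : dbl g T T = ∑ p, ∑ p', if p ∈ T ∧ p' ∈ T then g p p' else 0 := by
      unfold dbl
      rw [← Finset.sum_subset (Finset.subset_univ T)]
      · refine Finset.sum_congr rfl fun p hp => ?_
        rw [← Finset.sum_subset (Finset.subset_univ T)]
        · exact Finset.sum_congr rfl fun p' hp' => by simp [hp, hp']
        · intro p' _ hp'; simp [hp']
      · intro p _ hp; simp [hp]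
    have h3 : dbl g Finset.univ Finset.univ = ∑ p, ∑ p', g p p' := rfl
    rw [h2, h3, ← mul_sub, ← Finset.sum_sub_distrib, ← mul_assoc, Finset.mul_sum]
    refine Finset.sum_congr rfl fun p _ => ?_
    rw [← Finset.sum_sub_distrib, Finset.mul_sum]
    refine Finset.sum_congr rfl fun p' _ => ?_
    split_ifs <;> ring
  have hocc : ∀ p : (I.Cell X × Bool), (siteN I a ell D Lam W p).2 = true ↔ p ∈ T := by
    rintro ⟨c, b⟩
    simp only [siteN, cellN_occ, T, sites, Finset.mem_image, Finset.mem_univ, true_and,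
      Prod.mk.injEq, beq_iff_eq]
    constructor
    · intro h; exact ⟨c, rfl, h.symm⟩
    · rintro ⟨c', rfl, h⟩; exact h.symm
  have h2 : ∀ p p' : (I.Cell X × Bool), ((Alg.pairTerm P (siteN I a ell D Lam W p)
      (siteN I a ell D Lam W p') : ℕ) : ℝ) ≤ (if p ∈ T ∧ p' ∈ T then 0 else P * g p p') ∧
      (if p ∈ T ∧ p' ∈ T then 0 else P * g p p') ≤
        ((Alg.pairTerm P (siteN I a ell D Lam W p) (siteN I a ell D Lam W p') : ℕ) : ℝ) + 1 := by
    intro p p'
    unfold Alg.pairTerm
    by_cases h : p ∈ T ∧ p' ∈ T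
    · rw [if_pos h]
      have : ((siteN I a ell D Lam W p).2 && (siteN I a ell D Lam W p').2) = true := by
        rw [Bool.and_eq_true, hocc, hocc]; exact h
      rw [if_pos this]
      simp
    · rw [if_neg h]
      have : ¬ (((siteN I a ell D Lam W p).2 && (siteN I a ell D Lam W p').2) = true) := by
        rw [Bool.and_eq_true, hocc, hocc]; exact h
      rw [if_neg this, isqrt_eq]
      have h3 := isqrt_bounds P (Alg.sqDist (siteN I a ell D Lam W p).1
        (siteN I a ell D Lam W p').1)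
      rw [sqrt_sqDist I ell D Lam W a hW] at h3
      exact h3
  have h3 : ((Alg.pairSum P ((siteL I X).map (siteN I a ell D Lam W)) : ℕ) : ℝ) =
      ∑ p : I.Cell X × Bool, ∑ p' : I.Cell X × Bool, ((Alg.pairTerm P (siteN I a ell D Lam W p)
      (siteN I a ell D Lam W p') : ℕ) : ℝ) := by
    unfold Alg.pairSum
    rw [List.map_map, list_sum_eq _ (nodup_siteL I) (mem_siteL I)]
    push_cast
    refine Finset.sum_congr rfl fun p _ => ?_
    simp only [Function.comp]
    rw [List.map_map, list_sum_eq _ (nodup_siteL I) (mem_siteL I)]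
    push_cast
    rfl
  rw [h1, h3]
  constructor
  · exact Finset.sum_le_sum fun p _ => Finset.sum_le_sum fun p' _ => (h2 p p').1
  · refine (Finset.sum_le_sum fun p _ => Finset.sum_le_sum fun p' _ => (h2 p p').2).trans ?_
    simp only [Finset.sum_add_distrib, Finset.sum_const, Finset.card_univ, nsmul_eq_mul, mul_one]
    rw [sq]

/-! ### The instance -/

theorem exists_equiv {ι β : Type} (L : List ι) (hn : L.Nodup) (hm : ∀ p, p ∈ L) (G : ι → β) :
    ∃ e : Fin (L.map G).length ≃ ι, ∀ j, (L.map G).get j = G (e j) := by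
  classical
  refine ⟨(finCongr (List.length_map G)).trans (hn.getEquivOfForallMemList L hm), fun j => ?_⟩
  simp [List.Nodup.getEquivOfForallMemList]

/-- The nucleus at a site. -/
def nuc (lam : ℕ) (p : Alg.SiteN) : (ℚ × ℚ × ℚ) × ℕ :=
  ((((lam * p.1.1 : ℕ) : ℚ), ((lam * p.1.2.1 : ℕ) : ℚ), ((lam * p.1.2.2 : ℕ) : ℚ)), 1)

theorem dist_point (lam : ℕ) (p p' : Alg.SiteN) :
    ‖point (nuc lam p).1 - point (nuc lam p').1‖ =
      lam * Real.sqrt (Alg.sqDist p.1 p'.1 : ℕ) := by
  have h : ‖point (nuc lam p).1 - point (nuc lam p').1‖ ^ 2 =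
      (lam * Real.sqrt (Alg.sqDist p.1 p'.1 : ℕ)) ^ 2 := by
    rw [EuclideanSpace.norm_sq_eq, Fin.sum_univ_three, mul_pow,
      Real.sq_sqrt (Nat.cast_nonneg _), cast_sqDist]
    simp only [point, nuc, PiLp.sub_apply, Real.norm_eq_abs, sq_abs]
    simp
    ring
  exact (sq_eq_sq₀ (norm_nonneg _) (by positivity)).1 h

end H399

end Vale.Agent.P370
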