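import Vale.Agent.P370.H399.T2d

/-!
Block T2, part e: bounds of the ground-state energy of the instance.
-/

namespace Vale.Agent.P370

open Vale.Agent.Lib.PCP (CNF3 Lit)
open Vale.Agent.P363.Stmt

namespace H399

theorem card_sites {κ : Type} [Fintype κ] [DecidableEq κ] (t : κ → Bool) :
    (sites t).card = Fintype.card κ := by
  unfold sites
  rw [Finset.card_image_of_injective _ fun c c' h => (Prod.mk.inj h).1]
  rfl

/-- The classical part: the Coulomb energies of `K` charges. -/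
theorem coul_bounds (hP5 : CellStmt) (hP6 : XorInst.IsingStmt) (φ : CNF3)
    (a ell D Lam W X : ℕ) (hell : ell = Alg.qq φ ^ 32) (hD : D = Alg.qq φ ^ 34)
    (hLam : Lam = 2 * Alg.qq φ ^ 57) (hW : W = Alg.qq φ ^ 67) (hX : X = ((xI φ).m + 2) * Lam)
    (h1ell : 1 ≤ ell) (h1D : 1 ≤ D) (h1Lam : 1 ≤ Lam) (hWm : 20 + 2 * (xI φ).m ≤ W)
    (hWK : 4 * W * (Fintype.card ((xI φ).Cell X) + 1) ≤ 2 * a) (w err : ℝ)
    (hw : w = (W : ℝ) / (D : ℝ) ^ 3 / (2 * a : ℝ) ^ 3)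
    (herr : err = 3 * (Fintype.card ((xI φ).Cell X) : ℝ) ^ 2 * (W : ℝ) ^ 4 / (2 * a : ℝ) ^ 5) :
    (φ.Sat → ∃ T : Finset ((xI φ).Cell X × Bool), T.card = Fintype.card ((xI φ).Cell X) ∧
      coulE (sd (xI φ) ell D Lam W a) T ≤
        coulE (sd (X := X) (xI φ) ell D Lam W a)
          (sites ((xI φ).ord (fun _ => true) (fun _ => true))) +
        w * (-4 * Alg.posFirst φ + 1 / 2) + 2 * err) ∧
    (¬ φ.Sat → ∀ T : Finset ((xI φ).Cell X × Bool), T.card = Fintype.card ((xI φ).Cell X) →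
      coulE (sd (X := X) (xI φ) ell D Lam W a)
          (sites ((xI φ).ord (fun _ => true) (fun _ => true))) +
        w * (-4 * Alg.posFirst φ + 7 / 2) - 2 * err ≤ coulE (sd (xI φ) ell D Lam W a) T) := by
  obtain ⟨hI1, hI2⟩ := ising_bounds hP6 φ ell D Lam W X hell hD hLam hW hX
  have hW1 : 1 ≤ W := by omega
  have h1 : (1 : ℝ) ≤ W := by exact_mod_cast hW1
  have h2 : ∀ c : (xI φ).Cell X, 1 ≤ ((xI φ).hgt Lam W c : ℝ) ∧ ((xI φ).hgt Lam W c : ℝ) ≤ W :=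
    fun c => ⟨by exact_mod_cast hgt_ge (xI φ) Lam W hW1 c,
      by exact_mod_cast hgt_le (xI φ) Lam W hWm c⟩
  have h3 : 4 * (W : ℝ) * (Fintype.card ((xI φ).Cell X) + 1) ≤ 2 * a := by exact_mod_cast hWK
  clear hell hD hLam hW hX
  obtain ⟨⟨A, hA⟩, hmin⟩ := hP5 ((xI φ).Cell X) ((xI φ).dst ell D Lam)
    (fun c => ((xI φ).hgt Lam W c : ℝ)) (2 * a) W h1 h2 (dst_comm _ _ _ _)
    (dst_self _ _ _ _) (one_le_dst _ _ _ _ h1ell h1D h1Lam) h3
  rw [← herr] at hA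
  have ha0 : (0 : ℝ) < 2 * a := by
    have : (0 : ℝ) ≤ Fintype.card ((xI φ).Cell X) := Nat.cast_nonneg _
    nlinarith
  have ha3 : (0 : ℝ) < (2 * a : ℝ) ^ 3 := by positivity
  have href := hA ((xI φ).ord (fun _ => true) (fun _ => true))
  rw [abs_le] at href
  have hdef : ∀ t : (xI φ).Cell X → Bool, isingE ((xI φ).dst ell D Lam)
      (fun c => ((xI φ).hgt Lam W c : ℝ)) t = (xI φ).ising ell D Lam W t := fun t => rfl
  have hwJ : ∀ z : ℝ, w * z = (W : ℝ) / (D : ℝ) ^ 3 * z / (2 * a : ℝ) ^ 3 := fun z => by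
    rw [hw]; ring
  constructor
  · intro hs
    obtain ⟨t, ht⟩ := hI1 hs
    refine ⟨sites t, card_sites t, ?_⟩
    have h4 := hA t
    rw [abs_le] at h4
    rw [hdef] at h4 href
    have h5 := div_le_div_of_nonneg_right ht ha3.le
    rw [add_div] at h5
    rw [hwJ]
    unfold sd
    linarith [h4.2, href.1]
  · intro hs T hT
    obtain ⟨t, ht⟩ := hmin T hT
    have h4 := hA t
    rw [abs_le] at h4
    rw [hdef] at h4 href
    have h5 := div_le_div_of_nonneg_right (hI2 hs t) ha3.le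
    rw [add_div] at h5
    rw [hwJ]
    unfold sd
    linarith [h4.1, href.2]

/-- Bounds of the ground-state energy of the protons at the sites. -/
theorem E0_gen (hL : LowerStmt) (hU : UpperStmt) (hB : BddStmt) (hP5 : CellStmt)
    (hP6 : XorInst.IsingStmt) : ∃ C : ℝ, 0 < C ∧ ∀ (φ : CNF3) (a ell D Lam W X P μ : ℕ),
    ell = Alg.qq φ ^ 32 → D = Alg.qq φ ^ 34 → Lam = 2 * Alg.qq φ ^ 57 → W = Alg.qq φ ^ 67 →
    X = ((xI φ).m + 2) * Lam → 1 ≤ ell → 1 ≤ D → 1 ≤ Lam → 1 ≤ a → 20 + 2 * (xI φ).m ≤ W →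
    4 * W * (Fintype.card ((xI φ).Cell X) + 1) ≤ 2 * a → 1 ≤ Fintype.card ((xI φ).Cell X) →
    1 ≤ P → 1 ≤ μ → C * (2 * Fintype.card ((xI φ).Cell X) : ℕ) ≤ μ → ∀ (w err : ℝ),
    w = (W : ℝ) / (D : ℝ) ^ 3 / (2 * a : ℝ) ^ 3 →
    err = 3 * (Fintype.card ((xI φ).Cell X) : ℝ) ^ 2 * (W : ℝ) ^ 4 / (2 * a : ℝ) ^ 5 →
    ∀ (M : ℕ) (R : Fin M → R3) (e : Fin M ≃ (xI φ).Cell X × Bool),
    (∀ j k, ‖R j - R k‖ = (μ : ℝ) ^ 3 * sd (xI φ) ell D Lam W a (e j) (e k)) →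
    (φ.Sat → groundEnergy (Fintype.card ((xI φ).Cell X)) (fun _ : Fin M => 1) R ≤
      -(Fintype.card ((xI φ).Cell X) : ℝ) / 2 + 1 / (μ : ℝ) ^ 3 *
        (-((Alg.pairSum P ((siteL (xI φ) X).map (siteN (xI φ) a ell D Lam W)) : ℕ) : ℝ) / (2 * P) +
          w * (-4 * Alg.posFirst φ + 1 / 2) + 2 * err) +
        C * ((2 * Fintype.card ((xI φ).Cell X) : ℕ) : ℝ) ^ 2 / (μ : ℝ) ^ 4) ∧
    (¬ φ.Sat → -(Fintype.card ((xI φ).Cell X) : ℝ) / 2 + 1 / (μ : ℝ) ^ 3 *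
        (-(((Alg.pairSum P ((siteL (xI φ) X).map (siteN (xI φ) a ell D Lam W)) : ℕ) : ℝ) +
            ((2 * Fintype.card ((xI φ).Cell X) : ℕ) : ℝ) ^ 2) / (2 * P) +
          w * (-4 * Alg.posFirst φ + 7 / 2) - 2 * err) -
        C * ((2 * Fintype.card ((xI φ).Cell X) : ℕ) : ℝ) ^ 2 / (μ : ℝ) ^ 4 ≤
      groundEnergy (Fintype.card ((xI φ).Cell X)) (fun _ : Fin M => 1) R) := by
  obtain ⟨C, hC, hG⟩ := ground_bounds hL hU hB
  refine ⟨C, hC, ?_⟩
  intro φ a ell D Lam W X P μ hell hD hLam hW hX h1ell h1D h1Lam h1a hWm hWK hK hP hμ1 hμ w err hw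
    herr M R e hR
  obtain ⟨hS, hN⟩ := coul_bounds hP5 hP6 φ a ell D Lam W X hell hD hLam hW hX h1ell h1D h1Lam
    hWm hWK w err hw herr
  clear hell hD hLam hW hX
  have hpair := pairSum_bounds (xI φ) a ell D Lam W X P hWm
  simp only at hpair
  set K := Fintype.card ((xI φ).Cell X) with hKd
  have hcard : Fintype.card ((xI φ).Cell X × Bool) = 2 * K := by
    rw [Fintype.card_prod, Fintype.card_bool, ← hKd, mul_comm]
  rw [hcard] at hpair
  have hM : M = 2 * K := by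
    rw [← hcard, ← Fintype.card_congr e, Fintype.card_fin]
  subst hM
  have hμ0 : (0 : ℝ) < μ := by exact_mod_cast hμ1
  have hμ1' : (1 : ℝ) ≤ μ := by exact_mod_cast hμ1
  have hP0 : (0 : ℝ) < P := by exact_mod_cast hP
  have hW1 : 1 ≤ W := by omega
  obtain ⟨hGu, hGl⟩ := hG (2 * K) K R μ hK (by omega) (by exact_mod_cast hμ) (fun j k hjk => by
    rw [hR]
    have := one_le_sd (xI φ) ell D Lam W a h1a hW1 h1ell h1D h1Lam (e j) (e k)
      (fun h => hjk (e.injective h))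
    have h3 : (0 : ℝ) ≤ (μ : ℝ) ^ 3 := by positivity
    nlinarith)
  set d := sd (X := X) (xI φ) ell D Lam W a with hd
  set Tr := sites ((xI φ).ord (X := X) (fun _ => true) (fun _ => true)) with hTr
  set Sm : ℝ := ((Alg.pairSum P ((siteL (xI φ) X).map (siteN (xI φ) a ell D Lam W)) : ℕ) : ℝ)
    with hSm
  have hsel : ∀ S : Finset (Fin (2 * K)), selE R S =
      1 / (μ : ℝ) ^ 3 * (coulE d (Sᶜ.map e.toEmbedding) - coulE d Finset.univ) := fun S =>
    selE_eq e d (sd_comm _ _ _ _ _ _) (sd_self _ _ _ _ _ _) _ R hR S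
  have hlam : (0 : ℝ) ≤ 1 / (μ : ℝ) ^ 3 := by positivity
  have hB1 : Sm / (2 * P) ≤ coulE d Finset.univ - coulE d Tr := by
    rw [div_le_iff₀ (by positivity)]
    linarith [hpair.1]
  have hB2 : coulE d Finset.univ - coulE d Tr ≤ (Sm + ((2 * K : ℕ) : ℝ) ^ 2) / (2 * P) := by
    rw [le_div_iff₀ (by positivity)]
    linarith [hpair.2]
  constructor
  · intro hs
    obtain ⟨T, hT, hT'⟩ := hS hs
    set S : Finset (Fin (2 * K)) := (T.map e.symm.toEmbedding)ᶜ with hSd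
    have hSc : S.card = K := by
      rw [hSd, Finset.card_compl, Finset.card_map, hT, Fintype.card_fin]
      omega
    have hST : Sᶜ.map e.toEmbedding = T := by
      rw [hSd, compl_compl, Finset.map_map]
      ext p
      simp
    have h1 := hGu S hSc
    rw [hsel, hST] at h1
    refine h1.trans ?_
    have h2 : coulE d T - coulE d Finset.univ ≤
        -Sm / (2 * P) + w * (-4 * Alg.posFirst φ + 1 / 2) + 2 * err := by
      rw [neg_div]
      linarith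
    have h3 := mul_le_mul_of_nonneg_left h2 hlam
    linarith
  · intro hs
    refine hGl _ fun S hSc => ?_
    rw [hsel]
    refine mul_le_mul_of_nonneg_left ?_ hlam
    have hc : (Sᶜ.map e.toEmbedding).card = K := by
      rw [Finset.card_map, Finset.card_compl, hSc, Fintype.card_fin]
      omega
    have h1 := hN hs _ hc
    rw [neg_div]
    linarith

end H399

end Vale.Agent.P370
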