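import Vale.Agent.P370.H399.T2e

/-!
Block T2, part f: numerical estimates.
-/

namespace Vale.Agent.P370

namespace H399

theorem w_eq {q : ℝ} (hq : 0 < q) :
    q ^ 67 / (q ^ 34) ^ 3 / (2 * q ^ 212) ^ 3 = 1 / (8 * q ^ 671) := by
  have h : (q ^ 34) ^ 3 * (2 * q ^ 212) ^ 3 = q ^ 67 * (8 * q ^ 671) := by ring
  rw [div_div, h, div_mul_eq_div_div, div_self (by positivity)]

theorem num1 {q K : ℝ} (hq : 1000 ≤ q) (hK0 : 0 ≤ K) (hK : K ≤ q ^ 59) :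
    2 * (3 * K ^ 2 * (q ^ 67) ^ 4 / (2 * q ^ 212) ^ 5) ≤ 1 / (8 * q ^ 671) / 8 := by
  have hq0 : 0 < q := by linarith
  have h1 : K ^ 2 ≤ (q ^ 59) ^ 2 := pow_le_pow_left₀ hK0 hK 2
  have h3 : (12 : ℝ) ≤ q ^ 3 := by nlinarith [sq_nonneg q, mul_self_nonneg (q - 1)]
  rw [div_div, ← mul_div_assoc, div_le_div_iff₀ (by positivity) (by positivity)]
  calc 2 * (3 * K ^ 2 * (q ^ 67) ^ 4) * (8 * q ^ 671 * 8)
      ≤ 2 * (3 * (q ^ 59) ^ 2 * (q ^ 67) ^ 4) * (8 * q ^ 671 * 8) := by gcongr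
    _ = 12 * (32 * q ^ 1057) := by ring
    _ ≤ q ^ 3 * (32 * q ^ 1057) := by gcongr
    _ = 1 * (2 * q ^ 212) ^ 5 := by ring

theorem num2 {q K : ℝ} (hq : 1000 ≤ q) (hK0 : 0 ≤ K) (hK : K ≤ q ^ 59) :
    (2 * K) ^ 2 / (2 * q ^ 800) ≤ 1 / (8 * q ^ 671) / 8 := by
  have hq0 : 0 < q := by linarith
  have h1 : K ^ 2 ≤ (q ^ 59) ^ 2 := pow_le_pow_left₀ hK0 hK 2
  have h3 : (128 : ℝ) ≤ q ^ 11 := by
    calc (128 : ℝ) ≤ 1000 ^ 11 := by norm_num
      _ ≤ q ^ 11 := pow_le_pow_left₀ (by norm_num) hq 11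
  rw [div_div, div_le_div_iff₀ (by positivity) (by positivity)]
  calc (2 * K) ^ 2 * (8 * q ^ 671 * 8) = 256 * K ^ 2 * q ^ 671 := by ring
    _ ≤ 256 * (q ^ 59) ^ 2 * q ^ 671 := by gcongr
    _ = 128 * (2 * q ^ 789) := by ring
    _ ≤ q ^ 11 * (2 * q ^ 789) := by gcongr
    _ = 1 * (2 * q ^ 800) := by ring

theorem num3 {q K C c : ℝ} (hq : 1000 ≤ q) (hK0 : 0 ≤ K) (hK : K ≤ q ^ 59) (hC : 0 < C)
    (hc : C ≤ c) : C * (2 * K) ^ 2 / (c * q ^ 800) ^ 4 ≤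
      1 / (c * q ^ 800) ^ 3 * (1 / (8 * q ^ 671) / 8) := by
  have hq0 : 0 < q := by linarith
  have hc0 : 0 < c := lt_of_lt_of_le hC hc
  have h1 : K ^ 2 ≤ (q ^ 59) ^ 2 := pow_le_pow_left₀ hK0 hK 2
  have h3 : (256 : ℝ) ≤ q ^ 11 := by
    calc (256 : ℝ) ≤ 1000 ^ 11 := by norm_num
      _ ≤ q ^ 11 := pow_le_pow_left₀ (by norm_num) hq 11
  have h4 : C * (2 * K) ^ 2 / (c * q ^ 800) ≤ 1 / (8 * q ^ 671) / 8 := by
    rw [div_div, div_le_div_iff₀ (by positivity) (by positivity)]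
    calc C * (2 * K) ^ 2 * (8 * q ^ 671 * 8) = 256 * C * K ^ 2 * q ^ 671 := by ring
      _ ≤ 256 * c * (q ^ 59) ^ 2 * q ^ 671 := by gcongr
      _ = 256 * (c * q ^ 789) := by ring
      _ ≤ q ^ 11 * (c * q ^ 789) := by gcongr
      _ = 1 * (c * q ^ 800) := by ring
  have h5 : C * (2 * K) ^ 2 / (c * q ^ 800) ^ 4 =
      1 / (c * q ^ 800) ^ 3 * (C * (2 * K) ^ 2 / (c * q ^ 800)) := by
    rw [pow_succ (c * q ^ 800) 3]
    field_simp
  rw [h5]
  exact mul_le_mul_of_nonneg_left h4 (by positivity)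

/-- The rounded thresholds. -/
theorem threshold_bounds (k num den : ℕ) (hk : 1 ≤ k) (hden : 0 < den) :
    -((num : ℝ) / den) - 1 / 2 ^ k ≤ ((Alg.threshold k num den : ℚ) : ℝ) ∧
      ((Alg.threshold k num den : ℚ) : ℝ) ≤ -((num : ℝ) / den) + 1 / 2 ^ k := by
  obtain ⟨j, rfl⟩ : ∃ j, k = j + 1 := ⟨k - 1, by omega⟩
  have hd : (0 : ℝ) < den := by exact_mod_cast hden
  have h2 : (0 : ℝ) < 2 ^ (j + 1) := by positivity
  set v := num * 2 ^ j / den with hv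
  have h3 : v * den ≤ num * 2 ^ j := Nat.div_mul_le_self _ _
  have h4 : num * 2 ^ j < (v + 1) * den := by
    have := Nat.lt_div_mul_add (a := num * 2 ^ j) hden
    rw [← hv] at this
    linarith [this]
  have h3' : (v : ℝ) * den ≤ num * 2 ^ j := by exact_mod_cast h3
  have h4' : (num : ℝ) * 2 ^ j < (v + 1) * den := by exact_mod_cast h4
  have e : ((Alg.threshold (j + 1) num den : ℚ) : ℝ) = -((2 * v + 1) / 2 ^ (j + 1)) := by
    unfold Alg.threshold Alg.oddNum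
    rw [Nat.add_sub_cancel, ← hv]
    push_cast
    ring
  rw [e]
  have h5 : (num : ℝ) / den - 1 / 2 ^ (j + 1) ≤ (2 * v + 1) / 2 ^ (j + 1) := by
    rw [div_sub_div _ _ hd.ne' h2.ne', div_le_div_iff₀ (by positivity) h2]
    have : (num : ℝ) * 2 ^ (j + 1) - den * 1 ≤ (2 * v + 1) * den := by
      rw [pow_succ]; nlinarith
    nlinarith
  have h6 : (2 * (v : ℝ) + 1) / 2 ^ (j + 1) ≤ (num : ℝ) / den + 1 / 2 ^ (j + 1) := by
    rw [div_add_div _ _ hd.ne' h2.ne', div_le_div_iff₀ h2 (by positivity)]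
    have : (2 * (v : ℝ) + 1) * den ≤ num * 2 ^ (j + 1) + den * 1 := by
      rw [pow_succ]; nlinarith
    nlinarith
  constructor <;> linarith

theorem length_pairW (u v : List Bool) :
    (Vale.Agent.P333.pairW u v).length = 2 * u.length + 1 + v.length := by
  unfold Vale.Agent.P333.pairW
  rw [List.length_append, List.length_flatMap]
  simp
  ring

theorem length_instW (I : Instance) : (Nat.bits I.a.den).length ≤ (instW I).length := by
  unfold instW ratW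
  simp only [length_pairW]
  omega

theorem length_bits_two_pow (k : ℕ) : (Nat.bits (2 ^ k)).length = k + 1 := by
  rw [Nat.size_eq_bits_len, Nat.size_pow]

end H399

end Vale.Agent.P370
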